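import Vale.Agent.P286EG3.Bc
import Vale.Agent.P286EXB.Bar

/-!
# Fibre-cartesian families
-/

namespace Vale.Agent.P286EG3

open CategoryTheory TensorProduct Vale.Agent.P286 Vale.Agent.P286.St Vale.Agent.P286.H847
  Vale.Agent.P286E Vale.Agent.P286EG Vale.Agent.P286EX
open Vale.Agent.P286EK (DD DM UU)

noncomputable section

variable {I : Type} [SmallCategory I] {D : CD I} {G : Grp} {s : ℂ}

theorem FA.db_comp (F : FA (QS D G s)) {X Y Z : QO D} {u : Ar G s X Y} {v : Ar G s Y Z}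
    (hu : DB (QM.φ u).r (F.M X) (F.M Y) (F.t u)) (hv : DB (QM.φ v).r (F.M Y) (F.M Z) (F.t v)) :
    DB (QM.φ (u ≫ v)).r (F.M X) (F.M Z) (F.t (u ≫ v)) :=
  (hv.comp hu).congr (fun _ => rfl) fun x => (F.t_comp u v x).symm

theorem FA.db_cancel (F : FA (QS D G s)) {X Y Z : QO D} {u : Ar G s X Y} {v : Ar G s Y Z}
    (hu : DB (QM.φ u).r (F.M X) (F.M Y) (F.t u))
    (h : DB (QM.φ (u ≫ v)).r (F.M X) (F.M Z) (F.t (u ≫ v))) :
    DB (QM.φ v).r (F.M Y) (F.M Z) (F.t v) :=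
  hu.cancel (F.sl v) (h.congr (fun _ => rfl) (F.t_comp u v))

variable (K : GK G) (xd : XD D)

theorem zA_comp {X Y : QO D} (u : Ar G s X Y) : zA K xd s X ≫ u =
    Za K xd s (QM.α u) ≫ zar K xd s Y (𝟙 Y.i) (QM.h u) (QM.pt u) :=
  zar_ext K xd ((Category.id_comp _).trans (Category.comp_id _).symm)
    ((congrArg (QM.h u * ·) (map_one' _)).trans (congrArg (QM.h u * ·) (map_one' _)).symm)

/-- A fibre-cartesian family is cartesian iff it is so between the universal points. -/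
theorem fc_all {F : FA (QS D G s)} (h : FC F) :
    (∀ (X Y : QO D) (u : Ar G s X Y), DB (QM.φ u).r (F.M X) (F.M Y) (F.t u)) ↔
      ∀ (i j : I) (α : i ⟶ j), DB (QM.φ (Za K xd s α)).r (F.M (Zo xd i)) (F.M (Zo xd j))
        (F.t (Za K xd s α)) := by
  refine ⟨fun h' i j α => h' _ _ _, fun h' X Y u => ?_⟩
  refine FA.db_cancel F (h _ _ (zA K xd s X) ⟨rfl, rfl⟩) ?_
  rw [zA_comp]
  exact FA.db_comp F (h' _ _ _) (h _ _ _ ⟨rfl, rfl⟩)

theorem gc_iff_Za {F : GTD (QS D G s)} (h : FC (gfa F)) :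
    GC F ↔ ∀ (i j : I) (α : i ⟶ j), DB (QM.φ (Za K xd s α)).r (ag F (Zo xd i)) (ag F (Zo xd j))
      (F.tr (Za K xd s α)) := (gc_iff F).trans (fc_all K xd h)

theorem GC.fc {F : GTD (QS D G s)} (h : GC F) : FC (gfa F) := fun _ _ u _ => h.db u

include K in
/-- A map of fibre-cartesian families is a quasi-isomorphism iff it is one at the universal
points. -/
theorem FC.qis {F F' : FA (QS D G s)} (h : FC F) (h' : FC F') (u : FA.Hom F F')
    (q : ∀ i, GD.Qis (u.u (Zo xd i))) (X : QO D) : GD.Qis (u.u X) :=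
  (h _ _ (zA K xd s X) ⟨rfl, rfl⟩).qis (h' _ _ (zA K xd s X) ⟨rfl, rfl⟩) (u.li _) (u.li _) (q X.i)
    (u.nat _)

variable {K xd}

/-- The bar construction as a tensor product. -/
def barTP {S : GS (QS D G s)} {A : DD I} (B : BD S (ixQ D G s) A) (N : DM A) (X : QO D) :
    TP (dag (B.bK N X)) (dag (B.P.K X)) (UU (N.M X.i)) :=
  ⟨LinearEquiv.refl _ _, fun _ _ => Iff.rfl, RA.smul_eq _, (B.ρ X).int⟩

theorem fc_barH {S : GS (QS D G s)} {A : DD I} (B : BD S (ixQ D G s) A) {ι : Type}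
    (e : ∀ X : QO D, Module.Basis ι (RQ G s X) (B.P.K X).M.V)
    (bc : ∀ {X Y : QO D} (u : Ar G s X Y), ∃ e' : Module.Basis ι (RQ G s Y) (B.P.K Y).M.V,
      ∀ γ, e' γ = (B.P.t u).f (e X γ)) (N : DM A) : FC (B.barH N).fa := by
  rintro X ⟨j, Y, x, y, sq⟩ u ⟨hi, hα⟩
  obtain rfl : X.i = j := hi
  obtain ⟨e', he⟩ := bc u
  have := Module.Free.of_basis (e X)
  refine (barTP B N X).db (barTP B N ⟨X.i, Y, x, y, sq⟩) (t := B.P.t u)
    (BC.of_basis (fun _ _ => rfl) (fun _ _ => rfl) (B.P.t_smul u) (e X) e' he) (fun z => ?_)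
    fun _ _ => rfl
  have h1 : BD.ut N (QM.α u) = LinearMap.id := (congrArg (BD.ut N) hα).trans (BD.ut_id N X.i)
  exact (LinearMap.congr_fun (B.bt_eq N u) z).trans
    (LinearMap.congr_fun (congrArg (TensorProduct.map (B.P.t u).f) h1) z)

/-- **The bar construction with the generator is fibre-cartesian.** -/
theorem fc_bar {U : Rep K} (P : PD K xd s U) (N : DM P.A) : FC ((barD P).obj N).fa :=
  fc_barH P.bd P.e P.bc N

/-- The generator is cartesian. -/
theorem bc_gen {U : Rep K} (P : PD K xd s U) {X Y : QO D} (u : Ar G s X Y) :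
    BC (QM.φ u).r (dag (P.P.K X)).fn (dag (P.P.K Y)).fn (P.P.t u).f := by
  obtain ⟨e', he⟩ := P.bc u
  exact BC.of_basis (R := RQ G s X) (R' := RQ G s Y) (V := (P.P.K X).M.V) (V' := (P.P.K Y).M.V)
    (fun _ _ => rfl) (fun _ _ => rfl) (P.P.t_smul u) (P.e X) e' he

end

end Vale.Agent.P286EG3
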