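import Vale.Agent.P286EG3.Dbl
import Vale.Agent.P286EG.Ag3

/-!
# Strict base change and the bar construction
-/

namespace Vale.Agent.P286EG3

open Vale.Agent.P286 Vale.Agent.P286EK Vale.Agent.P286EG
open Vale.Agent.P286.H847 Vale.Agent.P286.H847.GD Vale.Agent.P286.H847.SGD Vale.Agent.P286.H710
open TensorProduct DirectSum

noncomputable section

variable {R R' R'' : Type} [CommRing R] [CommRing R'] [CommRing R''] {f : R →+* R'}

section BC

variable {V V' V'' : Type} [AddCommGroup V] [Module ℂ V] [AddCommGroup V'] [Module ℂ V']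
  [AddCommGroup V''] [Module ℂ V'']

/-- The map `t` identifies `V'` with `R' ⊗_R V`. -/
structure BC (f : R →+* R') (a : R →+* Module.End ℂ V) (a' : R' →+* Module.End ℂ V')
    (t : V →ₗ[ℂ] V') : Prop where
  sl : ∀ r x, t (a r x) = a' (f r) (t x)
  ind : ∀ Q : V' → Prop, Q 0 → (∀ b x, Q (a' b (t x))) → (∀ x y, Q x → Q y → Q (x + y)) → ∀ y, Q y
  uni : ∀ (W : Type) [AddCommGroup W] (β : R' →+ V →+ W), (∀ r b x, β (f r * b) x = β b (a r x)) →
    ∃ g : V' →+ W, ∀ b x, g (a' b (t x)) = β b x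

variable {a : R →+* Module.End ℂ V} {a' : R' →+* Module.End ℂ V'} {a'' : R'' →+* Module.End ℂ V''}
  {t : V →ₗ[ℂ] V'}

theorem BC.of_bij [Module R V] [Module R' V'] (ha : ∀ r x, a r x = r • x)
    (ha' : ∀ r x, a' r x = r • x) (hs : ∀ (r : R) x, t.toAddMonoidHom (r • x) = f r • t.toAddMonoidHom x)
    (h : Function.Bijective (ExtS.lift f t.toAddMonoidHom hs)) : BC f a a' t where
  sl r x := by rw [ha, ha']; exact hs r x
  ind Q h0 h1 h2 y := by
    obtain ⟨z, rfl⟩ := h.2 y
    induction z using Br.el_ind f with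
    | h0 => rw [map_zero]; exact h0
    | ht b x => exact (congrArg Q (ha' b (t x))).mp (h1 b x)
    | ha x y hx hy => rw [map_add]; exact h2 _ _ hx hy
  uni W _ β hβ := by
    let _ : Module R R' := Module.compHom R' f
    let g : ExtS f V →+ W := TensorProduct.liftAddHom β fun r b x => (hβ r b x).trans (by rw [ha])
    let e := AddEquiv.ofBijective _ h
    refine ⟨g.comp e.symm.toAddMonoidHom, fun b x => ?_⟩
    have : a' b (t x) = e (ExtS.el f b x) := ha' _ _
    rw [this]
    exact congrArg g (e.symm_apply_apply _)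

theorem BC.of_isBaseChange [Algebra R R'] [Module R V] [Module R' V'] [Module R V']
    [IsScalarTower R R' V'] (ha : ∀ r x, a r x = r • x) (ha' : ∀ r x, a' r x = r • x)
    {t' : V →ₗ[R] V'} (h : IsBaseChange R' t') (ht : ∀ x, t x = t' x) :
    BC (algebraMap R R') a a' t where
  sl r x := by rw [ha, ha', ht, ht, map_smul, algebraMap_smul]
  ind Q h0 h1 h2 y := by
    obtain ⟨z, rfl⟩ := h.equiv.surjective y
    induction z using TensorProduct.induction_on with
    | zero => rw [map_zero]; exact h0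
    | tmul b x => rw [h.equiv_tmul, ← ht, ← ha']; exact h1 b x
    | add x y hx hy => rw [map_add]; exact h2 _ _ hx hy
  uni W _ β hβ := by
    let g : R' ⊗[R] V →+ W := TensorProduct.liftAddHom β fun r b x => by
      rw [Algebra.smul_def, hβ, ha]
    refine ⟨g.comp h.equiv.symm.toAddMonoidHom, fun b x => ?_⟩
    rw [ha', ht, ← h.equiv_tmul]
    exact congrArg g (h.equiv.symm_apply_apply _)

theorem BC.of_basis [Module R V] [Module R' V'] (ha : ∀ r x, a r x = r • x)
    (ha' : ∀ r x, a' r x = r • x) (hs : ∀ (r : R) x, t (r • x) = f r • t x) {ι : Type}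
    (e : Module.Basis ι R V) (e' : Module.Basis ι R' V') (h : ∀ k, e' k = t (e k)) :
    BC f a a' t := by
  let _ := f.toAlgebra
  let _ : Module R V' := Module.compHom V' f
  have : IsScalarTower R R' V' := .of_compHom R R' V'
  refine BC.of_isBaseChange ha ha' (t' := ⟨⟨t, map_add t⟩, hs⟩) (IsBaseChange.of_equiv
    ((Algebra.TensorProduct.basis R' e).equiv e' (Equiv.refl ι)) fun x => ?_) fun _ => rfl
  refine LinearMap.congr_fun (e.ext (f₁ := (((Algebra.TensorProduct.basis R' e).equiv e'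
    (Equiv.refl ι)).toLinearMap.restrictScalars R).comp (TensorProduct.mk R R' V 1))
    (f₂ := ⟨⟨t, map_add t⟩, hs⟩) fun k => ?_) x
  change (Algebra.TensorProduct.basis R' e).equiv e' (Equiv.refl ι) (1 ⊗ₜ e k) = t (e k)
  rw [← Algebra.TensorProduct.basis_apply, Module.Basis.equiv_apply, ← h]
  rfl

theorem BC.ext (h : BC f a a' t) {W : Type} [AddCommGroup W] {g g' : V' →+ W}
    (e : ∀ b x, g (a' b (t x)) = g' (a' b (t x))) (y : V') : g y = g' y :=
  h.ind (fun y => g y = g' y) (by rw [map_zero, map_zero]) e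
    (fun x y hx hy => by rw [map_add, map_add, hx, hy]) y

/-- Composition with an isomorphism. -/
theorem BC.comp_bij (h : BC f a a' t) {c : R' →+* Module.End ℂ V''} (e : V' →ₗ[ℂ] V'')
    (he : Function.Bijective e) (hc : ∀ b y, e (a' b y) = c b (e y)) : BC f a c (e.comp t) where
  sl r x := (congrArg e (h.sl r x)).trans (hc _ _)
  ind Q h0 h1 h2 y := by
    obtain ⟨z, rfl⟩ := he.2 y
    exact h.ind (fun z => Q (e z)) (by rw [map_zero]; exact h0)
      (fun b x => by rw [hc]; exact h1 b x) (fun x y hx hy => by rw [map_add]; exact h2 _ _ hx hy) z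
  uni W _ β hβ := by
    obtain ⟨g, hg⟩ := h.uni W β hβ
    let e' := LinearEquiv.ofBijective e he
    refine ⟨g.comp e'.symm.toAddMonoidHom, fun b x => ?_⟩
    rw [LinearMap.comp_apply, ← hc, ← hg]
    exact congrArg g (e'.symm_apply_apply _)

theorem BC.comp {f' : R' →+* R''} {t' : V' →ₗ[ℂ] V''} (h' : BC f' a' a'' t') (h : BC f a a' t) :
    BC (f'.comp f) a a'' (t'.comp t) where
  sl r x := (congrArg t' (h.sl r x)).trans (h'.sl _ _)
  ind Q h0 h1 h2 := h'.ind Q h0 (fun c y => h.ind (fun y => Q (a'' c (t' y)))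
    (by rw [map_zero, map_zero]; exact h0)
    (fun b x => by rw [h'.sl, ← Module.End.mul_apply, ← map_mul]; exact h1 _ x)
    (fun x y hx hy => by rw [map_add, map_add]; exact h2 _ _ hx hy) y) h2
  uni W _ β hβ := by
    obtain ⟨g, hg⟩ := h.uni (R'' →+ W) (AddMonoidHom.mk'
      (fun b => (β.comp (AddMonoidHom.mulLeft (f' b))).flip) fun b b' => by
        ext x c; simp [add_mul]) fun r b x => by
          ext c
          change β (f' (f r * b) * c) x = β (f' b * c) (a r x)
          rw [← hβ, map_mul f', mul_assoc]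
          rfl
    obtain ⟨k, hk⟩ := h'.uni W g.flip fun r c y => h.ext (g := g.flip (f' r * c))
      (g' := (g.flip c).comp (a' r).toAddMonoidHom) (fun b x => by
        change g (a' b (t x)) (f' r * c) = g (a' r (a' b (t x))) c
        rw [← Module.End.mul_apply, ← map_mul, hg, hg]
        change β (f' b * (f' r * c)) x = β (f' (r * b) * c) x
        rw [map_mul f', mul_comm (f' r) (f' b), mul_assoc]) y
    refine ⟨k, fun c x => (hk c (t x)).trans ?_⟩
    change g (t x) c = _
    have e := hg 1 x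
    rw [map_one, Module.End.one_apply] at e
    rw [e]
    change β (f' 1 * c) x = _
    rw [map_one, one_mul]

theorem BC.congr (h : BC f a a' t) {g : R →+* R'} {s : V →ₗ[ℂ] V'} (e : ∀ r, f r = g r)
    (e' : ∀ x, t x = s x) : BC g a a' s := by
  obtain rfl : f = g := RingHom.ext e
  obtain rfl : t = s := LinearMap.ext e'
  exact h

end BC

theorem exists_pi (E F : GD) (hE : IsInternal E.gr) (m : ℤ) :
    ∃ (π : E.V ⊗[ℂ] F.V →ₗ[ℂ] E.V ⊗[ℂ] F.V) (q : ℤ → F.V →ₗ[ℂ] F.V),
      (∀ j y, q j y ∈ F.gr j) ∧ (∀ j, ∀ y ∈ F.gr j, q j y = y) ∧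
        ∀ i, ∀ x ∈ E.gr i, ∀ y, π (x ⊗ₜ[ℂ] y) = x ⊗ₜ[ℂ] q (m - i) y := by
  classical
  choose r hr using fun j : ℤ => (F.gr j).subtype.exists_leftInverse_of_injective
    (Submodule.ker_subtype _)
  let e := LinearEquiv.ofBijective (coeLinearMap E.gr) hE
  refine ⟨TensorProduct.lift ((toModule ℂ ℤ _ fun i => ((TensorProduct.mk ℂ E.V F.V).compl₂
      ((F.gr (m - i)).subtype.comp (r (m - i)))).comp (E.gr i).subtype).comp e.symm.toLinearMap),
    fun j => (F.gr j).subtype.comp (r j), fun j y => (r j y).2,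
    fun j y hy => congrArg Subtype.val (LinearMap.congr_fun (hr j) ⟨y, hy⟩), fun i x hx y => ?_⟩
  have h2 : e.symm x = lof ℂ ℤ (fun m => E.gr m) i ⟨x, hx⟩ := by
    rw [LinearEquiv.symm_apply_eq]
    exact (coeLinearMap_lof E.gr i ⟨x, hx⟩).symm
  simp only [TensorProduct.lift.tmul, LinearMap.comp_apply, LinearEquiv.coe_coe]
  rw [h2, toModule_lof]
  rfl

theorem prj_comm {E E' : GD} (P : Prj E) (P' : Prj E') (u : E.V →ₗ[ℂ] E'.V)
    (hu : ∀ m, ∀ x ∈ E.gr m, u x ∈ E'.gr m) (m : ℤ) (x : E.V) : P'.P m (u x) = u (P.P m x) := by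
  induction x using Prj.ind P.sup with
  | zero => simp
  | hom n x hx =>
    by_cases h : n = m
    · subst h
      rw [P.eq n x hx, P'.eq n _ (hu n x hx)]
    · rw [P.ne n m h x hx, P'.ne n m h _ (hu n x hx), map_zero]
  | add x y hx hy => simp only [map_add, hx, hy]

/-- The graded module `X` is the tensor product of `M` with the graded space `U`. -/
structure TP (X M : AG R) (U : GD) where
  e : X.G.V ≃ₗ[ℂ] M.G.V ⊗[ℂ] U.V
  gr : ∀ m z, z ∈ X.G.gr m ↔ e z ∈ tgr M.G U m
  fn : ∀ r z, e (X.fn r z) = (M.fn r).rTensor U.V (e z)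
  int : IsInternal M.G.gr

namespace TP

variable {X M : AG R} {X' M' : AG R'} {U : GD}

theorem exists_ret (h : TP X M U) (m : ℤ) : ∃ π : M.G.V ⊗[ℂ] U.V →+ X.T m,
    (∀ r z, π ((M.fn r).rTensor U.V z) = r • π z) ∧ ∀ z, π (h.e (X.val m z)) = z := by
  obtain ⟨π, q, h1, h2, h3⟩ := exists_pi M.G U h.int m
  have hs := iSup_of_internal h.int
  have key : ∀ {Q : M.G.V ⊗[ℂ] U.V → Prop}, Q 0 → (∀ i, ∀ x ∈ M.G.gr i, ∀ y, Q (x ⊗ₜ[ℂ] y)) →
      (∀ x y, Q x → Q y → Q (x + y)) → ∀ z, Q z := by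
    intro Q a0 a1 a2 z
    induction z using TensorProduct.induction_on with
    | zero => exact a0
    | tmul x y =>
      induction x using Prj.ind hs with
      | zero => rw [zero_tmul]; exact a0
      | hom i x hx => exact a1 i x hx y
      | add x x' hx hx' => rw [add_tmul]; exact a2 _ _ hx hx'
    | add x y hx hy => exact a2 _ _ hx hy
  have hm : ∀ z, h.e.symm (π z) ∈ X.G.gr m := fun z => by
    rw [h.gr, h.e.apply_symm_apply]
    refine key (Q := fun z => π z ∈ tgr M.G U m) (by rw [map_zero]; exact zero_mem _)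
      (fun i x hx y => ?_) (fun x y hx hy => by rw [map_add]; exact add_mem hx hy) z
    rw [h3 i x hx]
    exact tmul_mem (by ring) hx (h1 _ _)
  refine ⟨AddMonoidHom.mk' (fun z => X.el _ (hm z)) fun x y => X.val_inj (by
    simp only [AG.val_el, map_add]), fun r z => X.val_inj (h.e.injective ?_),
    fun z => X.val_inj (h.e.injective ?_)⟩
  · change h.e (h.e.symm (π _)) = h.e (X.fn r (h.e.symm (π z)))
    rw [h.fn, h.e.apply_symm_apply, h.e.apply_symm_apply]
    refine key (Q := fun z => π ((M.fn r).rTensor U.V z) = (M.fn r).rTensor U.V (π z))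
      (by simp) (fun i x hx y => ?_) (fun x y hx hy => by simp only [map_add, hx, hy]) z
    rw [LinearMap.rTensor_tmul, h3 i x hx, h3 i _ (M.gr r i x hx), LinearMap.rTensor_tmul]
  · change h.e (h.e.symm (π _)) = _
    rw [h.e.apply_symm_apply]
    refine tgr_le (P := LinearMap.eqLocus π LinearMap.id) (fun i j x y hij hx hy => ?_)
      ((h.gr m _).1 (X.val_mem z))
    change π _ = x ⊗ₜ[ℂ] y
    rw [h3 i x hx, show m - i = j by omega, h2 j y hy]

theorem flat [Algebra ℂ R] [Module R M.G.V] [IsScalarTower ℂ R M.G.V] [Module.Flat R M.G.V]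
    (h : TP X M U) (hM : ∀ r x, M.fn r x = r • x) (m : ℤ) : Module.Flat R (X.T m) := by
  obtain ⟨π, h1, h2⟩ := h.exists_ret m
  have e : ∀ (r : R) (z : M.G.V ⊗[ℂ] U.V), (M.fn r).rTensor U.V z = r • z := fun r z => by
    induction z using TensorProduct.induction_on with
    | zero => simp
    | tmul x y => rw [LinearMap.rTensor_tmul, hM, smul_tmul']
    | add x y hx hy => rw [map_add, smul_add, hx, hy]
  exact Module.Flat.of_retract (M := M.G.V ⊗[ℂ] U.V)
    ⟨⟨fun z => h.e (X.val m z), fun x y => by rw [map_add, map_add]⟩,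
      fun r z => (h.fn r _).trans (e r _)⟩
    ⟨⟨π, map_add π⟩, fun r z => (congrArg π (e r z).symm).trans (h1 r z)⟩ (LinearMap.ext h2)

variable (h : TP X M U) (h' : TP X' M' U) {t : Hom M.G M'.G} (hb : BC f M.fn M'.fn t.f)
  {w : Hom X.G X'.G} (hw : ∀ z, h'.e (w.f z) = t.f.rTensor U.V (h.e z))
include h h' hb hw

theorem sl : Sl f X X' w := fun r z => h'.e.injective (by
  rw [hw, h.fn, h'.fn, hw]
  exact (rT_rT (h := t.f.comp (M.fn r)) (fun _ => rfl) _).trans
    (rT_rT (fun x => (hb.sl r x).symm) _).symm)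

theorem bij (m : ℤ) : Function.Bijective ((bm _ (h.sl h' hb hw).sl).f m) := by
  have hv : ∀ b ξ, h'.e (X'.val m ((bm _ (h.sl h' hb hw).sl).f m (ExtS.el f b ξ))) =
      (M'.fn b).rTensor U.V (t.f.rTensor U.V (h.e (X.val m ξ))) := fun b ξ =>
    (h'.fn b _).trans (congrArg _ (hw _))
  constructor
  · obtain ⟨π, h1, h2⟩ := h.exists_ret m
    let _ : Module R R' := Module.compHom R' f
    let μ : M.G.V →+ U.V →+ M.G.V ⊗[ℂ] U.V :=
      LinearMap.toAddMonoidHom'.comp (TensorProduct.mk ℂ _ _).toAddMonoidHom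
    let el : R' →+ X.T m →+ ExtS f (X.T m) :=
      LinearMap.toAddMonoidHom'.comp (TensorProduct.mk R R' (X.T m)).toAddMonoidHom
    obtain ⟨g, hg⟩ := hb.uni (U.V →+ ExtS f (X.T m)) (AddMonoidHom.mk'
      (fun b => μ.compr₂ ((el b).comp π)) fun b b' => by ext x y; simp) fun r b x => by
        ext y
        change el (r • b) (π (x ⊗ₜ[ℂ] y)) = el b (π ((M.fn r).rTensor U.V (x ⊗ₜ[ℂ] y)))
        rw [h1]
        exact smul_tmul r b _
    let G : M'.G.V ⊗[ℂ] U.V →+ ExtS f (X.T m) := TensorProduct.liftAddHom g fun c n y =>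
      hb.ext (g := (g.flip y).comp (DistribSMul.toAddMonoidHom _ c)) (g' := g.flip (c • y))
        (fun b x => by
          change g (c • M'.fn b (t.f x)) y = g (M'.fn b (t.f x)) (c • y)
          rw [← map_smul, ← map_smul, hg, hg]
          exact congrArg (fun z => el b (π z)) (smul_tmul c x y)) n
    have hG : ∀ b z, G ((M'.fn b).rTensor U.V (t.f.rTensor U.V z)) = el b (π z) := fun b z => by
      induction z using TensorProduct.induction_on with
      | zero => simp
      | tmul x y => exact DFunLike.congr_fun (hg b x) y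
      | add x y hx hy => simp only [map_add, hx, hy]
    refine Function.LeftInverse.injective (g := fun y => G (h'.e (X'.val m y))) fun z => ?_
    refine bc_ext (P := X.mc) (u := (G.comp (h'.e.toLinearMap.toAddMonoidHom.comp
      (X'.val m))).comp ((bm _ (h.sl h' hb hw).sl).f m)) (v := AddMonoidHom.id _) (fun b ξ => ?_) z
    exact (congrArg G (hv b ξ)).trans ((hG b _).trans (congrArg (el b) (h2 ξ)))
  · intro y
    obtain ⟨P⟩ := Prj.nonempty h.int
    obtain ⟨P'⟩ := Prj.nonempty h'.int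
    let S : AddSubgroup (M'.G.V ⊗[ℂ] U.V) := ((h'.e.toLinearMap.toAddMonoidHom.comp
      (X'.val m)).comp ((bm _ (h.sl h' hb hw).sl).f m)).range
    have h1 : ∀ i j n y, i + j = m → y ∈ U.gr j → P'.P i n ⊗ₜ[ℂ] y ∈ S := by
      intro i j n y hij hy
      refine hb.ind (fun n => P'.P i n ⊗ₜ[ℂ] y ∈ S)
        (by rw [map_zero, zero_tmul]; exact zero_mem _) (fun b x => ?_)
        (fun x x' hx hx' => by rw [map_add, add_tmul]; exact add_mem hx hx') n
      have hm : h.e.symm (P.P i x ⊗ₜ[ℂ] y) ∈ X.G.gr m := by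
        rw [h.gr, h.e.apply_symm_apply]
        exact tmul_mem hij (P.mem i x) hy
      refine ⟨ExtS.el f b (X.el _ hm), (hv b _).trans ?_⟩
      rw [AG.val_el, h.e.apply_symm_apply, prj_comm P' P' _ (M'.gr b), prj_comm P P' _ t.deg]
      rfl
    have h2 : ∀ z ∈ tgr M'.G U m, ∀ c : ℂ, c • z ∈ S := fun z hz => by
      refine Submodule.span_induction (p := fun z _ => ∀ c : ℂ, c • z ∈ S) ?_
        (fun c => by rw [smul_zero]; exact zero_mem _)
        (fun x y _ _ hx hy c => by rw [smul_add]; exact add_mem (hx c) (hy c))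
        (fun c' x _ hx c => by rw [smul_smul]; exact hx _) hz
      rintro _ ⟨i, j, n, y, hij, hn, hy, rfl⟩ c
      rw [← tmul_smul, ← P'.eq i n hn]
      exact h1 i j n _ hij (Submodule.smul_mem _ c hy)
    obtain ⟨z, hz⟩ := h2 _ ((h'.gr m _).1 (X'.val_mem y)) 1
    exact ⟨z, X'.val_inj (h'.e.injective (hz.trans (one_smul _ _)))⟩

/-- Along a flat map. -/
theorem db_of_flat [Algebra ℂ R] (hf : f.Flat) : DB f X X' w :=
  (db_flat hf (h.sl h' hb hw)).2 (AH.Qis.of_bij _ (h.bij h' hb hw))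

/-- For a flat module. -/
theorem db [Algebra ℂ R] [Algebra.Smooth ℂ R] [Module R M.G.V] [IsScalarTower ℂ R M.G.V]
    [Module.Flat R M.G.V] (hM : ∀ r x, M.fn r x = r • x) : DB f X X' w :=
  DB.of (h.sl h' hb hw) ⟨fun _ => LinearMap.id, fun _ _ _ _ => rfl⟩ (h.flat hM)
    (AH.Qis.of_bij _ fun _ => Function.bijective_id) (AH.Qis.of_bij _ (h.bij h' hb hw))

end TP

end

end Vale.Agent.P286EG3
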