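import Vale.Agent.P286EG3.Node

/-!
# Detection of cartesian families
-/

namespace Vale.Agent.P286EG3

open CategoryTheory Matrix TensorProduct Vale.Agent.P286 Vale.Agent.P286.St Vale.Agent.P286.H847
  Vale.Agent.P286E Vale.Agent.P286EG Vale.Agent.P286EX Vale.Agent.P286EH

noncomputable section

variable {I : Type} [SmallCategory I] {D : CD I} {G : Grp} {s : ℂ}

/-- The chart `j`, twisted by `g`. -/
abbrev nfJ (G : Grp) {j : I} (g : D.C j) (hg : IsUnit g) : NF D G j j where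
  κ Y := Y.x
  y Y := Y.Y
  sq Y := Y.sq
  hx u := u.hx
  hY {_ Y} u := u.hY.trans (by rw [map_one Y.x, one_smul])
  g := g
  unit := hg

/-- The chart `j` mapped to the chart `i`. -/
abbrev nfA (G : Grp) {i j : I} (α : i ⟶ j) : NF D G j i where
  κ Y := Y.x.comp (D.κ α)
  y Y := Y.x (D.c α) • Y.Y
  sq Y := by
    rw [smul_dotProduct, dotProduct_smul, Y.sq, AlgHom.comp_apply, D.κ_f, map_mul, map_pow,
      smul_eq_mul, smul_eq_mul, sq, mul_assoc]
  hx u z := u.hx _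
  hY {X Y} u := by
    have h1 : u.φ ∘ (X.x (D.c α) • X.Y) = Y.x (D.c α) • (u.φ ∘ X.Y) := funext fun a =>
      (map_mul u.φ _ _).trans (congrArg (· * _) (u.hx _))
    rw [h1, ht_smul, ht_smul, Matrix.mul_smul, Matrix.smul_mul, u.hY, map_one Y.x, one_smul]
  g := 1
  unit := isUnit_one

variable {i j : I} (α : i ⟶ j)

/-- The target functor. -/
abbrev nfB (D : CD I) (G : Grp) (α : i ⟶ j) : NF D G j j := nfJ G (D.r α) (D.r_unit α)

/-- The canonical arrow. -/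
def can (G : Grp) (s : ℂ) (Y : QO (node D j)) :
    Ar G s ((nfA G α).ob Y) ((nfB D G α).ob Y) :=
  (⟨α, AlgHom.id ℂ _, 1, Grp.Pt.one G, fun _ => rfl, by
    rw [Matrix.one_mul, Matrix.mul_one, ← ht_smul]; rfl⟩ : QM G ((nfA G α).ob Y) ((nfB D G α).ob Y))

theorem can_nat {X Y : QO (node D j)} (u : Ar G s X Y) :
    (nfA G α).map s u ≫ can α G s Y = can α G s X ≫ (nfB D G α).map s u :=
  ar_ext ((Category.id_comp _).trans (Category.comp_id _).symm) rfl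
    ((Matrix.one_mul _).trans ((congrArg (QM.h u * ·) (map_one' _)).trans (Matrix.mul_one _)).symm)

/-- The comparison map. -/
def cmp (F : GTD (QS D G s)) : FA.Hom (gfa ((nfA G α).res F)) (gfa ((nfB D G α).res F)) where
  u Y := F.tr (can α G s Y)
  li Y := sl_tr F (can α G s Y)
  nat u x := ((gfa F).t_comp _ _ x).symm.trans
    ((congrArg (fun w => (F.tr w).f x) (can_nat α u)).trans ((gfa F).t_comp _ _ x))

theorem vf_abs {T : TSite} (F : GTD T) {X Y : T.C} (φ : X ⟶ Y) (hφ : IsUnit (T.dl φ))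
    (w : (T.A Y).Der) (v : (T.A X).Der) (h : ∀ a, w (T.f φ a) = T.f φ (v a)) (b : T.R X)
    (hb : b = 0) (x : (F.F X).V) : (F.tr φ).f (F.vf X v x + F.fn X b x) =
      F.vf Y w ((F.tr φ).f x) + F.fn Y (T.s • dlog w (T.dl φ)) ((F.tr φ).f x) := by
  refine fn_cancel F Y hφ ?_
  rw [hb, fn_zero, add_zero, map_add, P286EH.tr_vf F φ w v h, ← fn_mul, gauge_dlog hφ rfl, fn_smul,
    sub_add_cancel]

theorem cmp_vf (F : GTD (QS D G s)) (X : QO (node D j)) (v) (x) :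
    ((cmp α F).u X).f (((nfA G α).res F).vf X v x) =
      ((nfB D G α).res F).vf X v (((cmp α F).u X).f x) :=
  vf_abs F (can α G s X) ((D.r_unit α).map X.x) v v (fun _ => rfl) (s • dlog v (X.x 1))
    ((congrArg (s • ·) (dlog_of_zero v ((congrArg v (map_one X.x)).trans
      v.map_one_eq_zero))).trans (smul_zero s)) x

variable (K : GK G) (xd : XD D)

/-- The universal point of the chart. -/
abbrev Zn (j : I) : QO (node D j) := Zo (xnode xd j) ⟨⟨⟩⟩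

/-- The first base change arrow. -/
def t1 (s : ℂ) : Ar G s (Zo xd i) ((nfA G α).ob (Zn xd j)) :=
  zA K xd s ((nfA G α).ob (Zn xd j))

/-- The second base change arrow. -/
def t2 (s : ℂ) : Ar G s (cop K (Zo xd i)) ((nfA G α).ob (cop K (Zn xd j))) :=
  dsc K (t1 α K xd s ≫ (nfA G α).map s (inl K s (Zn xd j))) (cg K (Zn xd j)) (cg_pt K _)

/-- The homomorphism of the first arrow. -/
def p1 (s : ℂ) : OZ D i →ₐ[ℂ] OZ D j := QM.φ (t1 α K xd s)

/-- The homomorphism of the second arrow. -/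
def p2 (s : ℂ) : OZ D i ⊗[ℂ] K.O.R →ₐ[ℂ] OZ D j ⊗[ℂ] K.O.R := QM.φ (t2 α K xd s)

theorem t1_can : t1 α K xd s ≫ can α G s (Zn xd j) = Za K xd s α :=
  zar_ext K xd (Category.id_comp _) (Matrix.one_mul _)

theorem inl_t2 : inl K s (Zo xd i) ≫ t2 α K xd s =
    t1 α K xd s ≫ (nfA G α).map s (inl K s (Zn xd j)) := inl_dsc K _ _ _

theorem inr_t2 : inr K xd s (Zo xd i) ≫ t2 α K xd s =
    t1 α K xd s ≫ (nfA G α).map s (inr K (xnode xd j) s (Zn xd j)) :=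
  (inr_dsc K xd _ _ _).trans (zar_ext K xd rfl
    ((congrArg (cg K (Zn xd j) * ·) (map_one' _)).trans (Matrix.mul_one _)).symm)

theorem t2_h : QM.h (t2 α K xd s) = 1 := (Matrix.one_mul _).trans (map_one' _)

theorem t2_cg : (cg K (Zo xd i)).map (QM.φ (t2 α K xd s)) = cg K (Zn xd j) :=
  (dsc_cg K _ _ _).trans ((congrArg (fun m => m.adjugate * cg K (Zn xd j)) (t2_h α K xd)).trans
    (by rw [adjugate_one, Matrix.one_mul]))

theorem t2_R (o : K.O.R) : p2 α K xd s (cR K (OZ D i) o) = cR K (OZ D j) o := by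
  let φ : K.O.R →ₐ[ℂ] OZ D j ⊗[ℂ] K.O.R := (p2 α K xd s).comp (cR K (OZ D i))
  have h : K.g.map φ = K.g.map (cR K (OZ D j)) := t2_cg (s := s) α K xd
  exact (congrArg (fun ψ : K.O.R →ₐ[ℂ] OZ D j ⊗[ℂ] K.O.R => ψ o)
    (K.ext (B := OZ D j ⊗[ℂ] K.O.R) _ _ h) :)

theorem t2_L (z : OZ D i) :
    p2 α K xd s (cL K (OZ D i) z) = cL K (OZ D j) (p1 α K xd s z) :=
  AlgHom.congr_fun (congrArg QM.φ (inl_t2 α K xd)) z

theorem t1_x (z : D.C i) : p1 α K xd s (zx D i z) = zx D j (D.κ α z) :=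
  (QM.hx (t1 α K xd s) z).trans (congrArg (fun a => zx D j (D.κ α a)) (D.κ_id i z))

theorem t1_y (a : Fin 3) : p1 α K xd s (zy D i a) = zx D j (D.c α) * zy D j a := by
  have h : (1 : Matrix _ _ (OZ D j)) * G.ht (p1 α K xd s ∘ zy D i) =
      zx D j (D.κ α (D.c (𝟙 i))) • (G.ht (zx D j (D.c α) • zy D j) * 1) := QM.hY (t1 α K xd s)
  rw [D.c_id, map_one, map_one, one_smul, Matrix.one_mul, Matrix.mul_one] at h
  exact congrFun (K.ht_inj h) a

theorem po_ex (T : Type) [CommRing T] [Algebra ℂ T] (g : D.C j →ₐ[ℂ] T) (g' : OZ D i →ₐ[ℂ] T)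
    (h : ∀ x, g' (zx D i x) = g (D.κ α x)) : ∃ ψ : OZ D j →ₐ[ℂ] T, (∀ x, ψ (zx D j x) = g x) ∧
      ∀ x, ψ (p1 α K xd s x) = g' x := by
  obtain ⟨b, hb⟩ := ((D.c_unit α).map g).exists_left_inv
  have h1 : g' ∘ zy D i ⬝ᵥ g' ∘ zy D i = g (D.c α) ^ 2 * g (D.f j) := by
    rw [← map_pow, ← map_mul, ← D.κ_f, ← h, ← zy_sq]
    simp only [dotProduct, map_sum, map_mul, Function.comp_apply]
  have h2 : b • g' ∘ zy D i ⬝ᵥ b • g' ∘ zy D i = g (D.f j) := by
    rw [smul_dotProduct, dotProduct_smul, h1, smul_eq_mul, smul_eq_mul]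
    linear_combination (b * g (D.c α) + 1) * g (D.f j) * hb
  refine ⟨zlift g _ h2, zlift_x _ _ _, AlgHom.congr_fun (z_ext
    (φ := (zlift g _ h2).comp (p1 α K xd s)) (fun z => ?_) fun a => ?_)⟩
  · exact (congrArg (zlift g _ h2) (t1_x (s := s) α K xd z)).trans ((zlift_x _ _ _ _).trans (h z).symm)
  · refine (congrArg (zlift g _ h2) (t1_y (s := s) α K xd a)).trans ?_
    rw [map_mul, zlift_x, zlift_y, Pi.smul_apply, smul_eq_mul, ← mul_assoc, mul_comm _ b, hb,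
      one_mul]
    rfl

theorem po_uq {T : Type} [CommRing T] [Algebra ℂ T] (ψ ψ' : OZ D j →ₐ[ℂ] T)
    (h : ∀ x, ψ (zx D j x) = ψ' (zx D j x))
    (h' : ∀ x, ψ (p1 α K xd s x) = ψ' (p1 α K xd s x)) : ψ = ψ' :=
  z_ext h fun a => (((D.c_unit α).map (zx D j)).map ψ).mul_left_cancel (by
    rw [← map_mul, ← t1_y (s := s) α K xd, h', t1_y, map_mul, h])

variable {F : FA (QS D G s)}

theorem db_t1 (h : FC F) : DB (D.κ α : D.C i →+* D.C j) ((F.M (Zo xd i)).res (zx D i).toRingHom)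
    ((F.M ((nfA G α).ob (Zn xd j))).res (zx D j).toRingHom) (F.t (t1 α K xd s)) :=
  db_po (D.κ α) (zx D i) (zx D j) (p1 α K xd s) (t1_x α K xd) (xd.flat α) (po_ex α K xd)
    (fun ψ h h' => AlgHom.congr_fun (po_uq α K xd ψ (AlgHom.id ℂ _) h h'))
    (h _ _ (t1 α K xd s) ⟨rfl, rfl⟩)

theorem po_ex2 (T : Type) [CommRing T] [Algebra ℂ T] (g : D.C j →ₐ[ℂ] T)
    (g' : OZ D i ⊗[ℂ] K.O.R →ₐ[ℂ] T) (hg : ∀ x, g' (cx K D i x) = g (D.κ α x)) :
    ∃ ψ : OZ D j ⊗[ℂ] K.O.R →ₐ[ℂ] T, (∀ x, ψ (cx K D j x) = g x) ∧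
      ∀ x, ψ (p2 α K xd s x) = g' x := by
  obtain ⟨ψ, h1, h2⟩ := po_ex (s := s) α K xd T g (g'.comp (cL K _)) hg
  let ψ' : OZ D j ⊗[ℂ] K.O.R →ₐ[ℂ] T :=
    Algebra.TensorProduct.lift ψ (g'.comp (cR K _)) fun _ _ => .all _ _
  have q1 : ∀ z, ψ' (cL K _ z) = ψ z := fun z =>
    (congrArg (ψ z * ·) (map_one (g'.comp (cR K _)))).trans (mul_one _)
  have q2 : ∀ z, ψ' (cR K _ z) = g' (cR K _ z) := fun z => by simp [ψ']
  refine ⟨ψ', fun x => (q1 _).trans (h1 x), AlgHom.congr_fun (tens_ext K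
    (u := ψ'.comp (p2 α K xd s)) (AlgHom.ext fun z => ?_) (Matrix.ext fun p q => ?_))⟩
  · exact (congrArg ψ' (t2_L α K xd z)).trans ((q1 _).trans (h2 z))
  · exact (congrArg ψ' (t2_R α K xd _)).trans (q2 _)

theorem po_uq2 (ψ : OZ D j ⊗[ℂ] K.O.R →ₐ[ℂ] OZ D j ⊗[ℂ] K.O.R)
    (h : ∀ x, ψ (cx K D j x) = cx K D j x) (h' : ∀ x, ψ (p2 α K xd s x) = p2 α K xd s x) (z) :
    ψ z = z :=
  AlgHom.congr_fun (tens_ext K (v := AlgHom.id ℂ _) (po_uq (s := s) α K xd _ _ h fun x =>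
    (congrArg ψ (t2_L α K xd x)).symm.trans ((h' _).trans (t2_L α K xd x)))
    (Matrix.ext fun _ _ => (congrArg ψ (t2_R (s := s) α K xd _)).symm.trans
      ((h' _).trans (t2_R α K xd _)))) z

theorem fib_t2 : Fib (t2 α K xd s) := ⟨rfl, Category.id_comp (𝟙 i)⟩

theorem db_t2 (h : FC F) : DB (D.κ α : D.C i →+* D.C j)
    ((F.M (cop K (Zo xd i))).res (cx K D i).toRingHom)
    ((F.M ((nfA G α).ob (cop K (Zn xd j)))).res (cx K D j).toRingHom) (F.t (t2 α K xd s)) := by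
  have h2 := fun M N t => db_po (A' := OZ D i ⊗[ℂ] K.O.R) (B' := OZ D j ⊗[ℂ] K.O.R)
    (D.κ α) (cx K D i) (cx K D j) (p2 α K xd s)
    (fun x => (t2_L α K xd _).trans (congrArg _ (t1_x α K xd x))) (xd.flat α) (po_ex2 α K xd)
    (po_uq2 α K xd) (M := M) (N := N) (t := t)
  have h3 := h2 (F.M (cop K (Zo xd i))) (F.M ((nfA G α).ob (cop K (Zn xd j)))) (F.t (t2 α K xd s))
  have h4 := h3 (h _ _ (t2 α K xd s) (fib_t2 α K xd))
  exact h4

variable {K} (U : Rep K)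

theorem eqH_t (F : GTD (QS D G s)) (x : Fin U.n → (F.F (Zo xd i)).V) :
    (eqH (xnode xd j) U (gfa ((nfA G α).res F)) ⟨⟨⟩⟩).f
      ((piMap fun _ => F.tr (t1 α K xd s)).f x) =
      (piMap fun _ => F.tr (t2 α K xd s)).f ((eqH xd U (gfa F) i).f x) := funext fun k => by
  refine (eqH_f (xnode xd j) U _ _ _ k).trans (Eq.trans ?_
    (congrArg (F.tr (t2 α K xd s)).f (eqH_f xd U (gfa F) i x k)).symm)
  refine Eq.trans ?_ ((map_sub _ _ _).trans (congrArg (HSub.hSub _) (map_sum _ _ _))).symm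
  refine congrArg₂ (· - ·) (((gfa F).t_comp _ _ _).symm.trans ((congrArg (fun w => (F.tr w).f (x k))
    (inr_t2 α K xd)).symm.trans ((gfa F).t_comp _ _ _))) (Finset.sum_congr rfl fun l _ => ?_)
  refine Eq.trans ?_ (sl_tr F (t2 α K xd s) _ _).symm
  refine congrArg₂ (fun a y => F.fn ((nfA G α).ob (cop K (Zn xd j))) a y) ?_
    (((gfa F).t_comp _ _ _).symm.trans ((congrArg (fun w => (F.tr w).f (x l))
      (inl_t2 α K xd)).symm.trans ((gfa F).t_comp _ _ _)))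
  exact (ev_cg (Zn xd j) _).trans ((t2_R α K xd _).symm.trans
    (congrArg (p2 α K xd s) (ev_cg (Zo xd i) _).symm))

theorem hom_ext {M N : GD} {u v : GD.Hom M N} (h : ∀ x, u.f x = v.f x) : u = v := by
  cases u
  cases v
  congr
  exact LinearMap.ext h

theorem eqH_B (F : GTD (QS D G s)) :
    eqH (xnode xd j) U (gfa ((nfB D G α).res F)) ⟨⟨⟩⟩ = eqH xd U (gfa F) j := by
  have e1 : (nfB D G α).map s (inr K (xnode xd j) s (Zn xd j)) = inr K xd s (Zo xd j) :=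
    zar_ext K xd rfl rfl
  exact hom_ext fun x => funext fun k => (eqH_f (xnode xd j) U _ _ x k).trans
    ((congrArg (fun w => (F.tr w).f (x k) - _) e1).trans (eqH_f xd U (gfa F) j x k).symm)

/-- **Detection of cartesian families.** -/
theorem cartf : CARTF := by
  intro I _ D G s K xd U hU F h i j α N N' ρ e e' he he' l l' hρ hc
  have := xd.sm i
  have k1 := cart_abs (xd.flat α) (N := N) (N' := N')
    (M₁ := AG.pi fun _ : Fin U.n => (ag F (Zo xd i)).res (zx D i).toRingHom)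
    (Q₁ := AG.pi fun _ : Fin U.n => (ag F (Zo xd j)).res (zx D j).toRingHom)
    (Q₂ := AG.pi fun _ : Fin U.n => (ag F (cop K (Zo xd j))).res (cx K D j).toRingHom)
    (E := toPw e) (fun z x => funext fun k => l k z x) (eqH_li xd U (gfa F) i) (Hit.ex xd U he)
    (DB.pi fun _ => db_t1 α K xd h) (DB.pi fun _ => db_t2 α K xd h)
    (eqH_li (xnode xd j) U (gfa ((nfA G α).res F)) ⟨⟨⟩⟩) (eqH_t α xd U F)
    (u := piMap fun _ => (cmp α F).u (Zn xd j))
    (fun z x => funext fun k => (cmp α F).li (Zn xd j) _ _) (E' := toPw e')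
    (fun z x => funext fun k => l' k z x) (Hit.ex xd U he') hρ fun x => funext fun k =>
      (hc k x).trans ((congrArg (fun w => (F.tr w).f _) (t1_can α K xd)).symm.trans
        ((gfa F).t_comp _ _ _))
  have k2 := kb_iff (xnode xd j) U hU (cmp α F) (NF.fc _ h) (NF.fc _ h) (cmp_vf α F) ⟨⟨⟩⟩
  rw [eqH_B] at k2
  have k3 := db_bij (f := (QM.φ (can α G s (Zn xd j))).r) Function.bijective_id
    (sl_tr F (can α G s (Zn xd j)))
  have d1 := h _ _ (t1 α K xd s) ⟨rfl, rfl⟩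
  rw [← t1_can α K xd]
  exact k1.trans (k2.trans (k3.symm.trans
    ⟨FA.db_comp (gfa F) d1, FA.db_cancel (gfa F) d1⟩))

end

end Vale.Agent.P286EG3
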