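import Vale.Agent.P286EK.Mor

/-!
# Change of rings for the bar construction
-/

namespace Vale.Agent.P286EG3

open Vale.Agent.P286EK
open Vale.Agent.P286.H847 Vale.Agent.P286.H847.GD Vale.Agent.P286.H847.SGD Vale.Agent.P286.H710
open TensorProduct DirectSum U0

noncomputable section

/-- The elements killed by a power of an operator. -/
def nil {V : Type} [AddCommGroup V] [Module ℂ V] (ν : V →ₗ[ℂ] V) : Submodule ℂ V where
  carrier := {x | ∃ n : ℕ, (ν ^ n) x = 0}
  add_mem' := by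
    rintro x y ⟨n, hn⟩ ⟨m, hm⟩
    exact ⟨max n m, by rw [map_add, Module.End.pow_map_zero_of_le (le_max_left n m) hn,
      Module.End.pow_map_zero_of_le (le_max_right n m) hm, add_zero]⟩
  zero_mem' := ⟨0, map_zero _⟩
  smul_mem' := by
    rintro c x ⟨n, hn⟩
    exact ⟨n, by rw [map_smul, hn, smul_zero]⟩

theorem nil_of {V : Type} [AddCommGroup V] [Module ℂ V] {ν : V →ₗ[ℂ] V} {x : V}
    (h : ν x ∈ nil ν) : x ∈ nil ν := by
  obtain ⟨n, hn⟩ := h
  exact ⟨n + 1, by rw [pow_succ]; exact hn⟩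

theorem nil_map {V W : Type} [AddCommGroup V] [Module ℂ V] [AddCommGroup W] [Module ℂ W]
    {ν : V →ₗ[ℂ] V} {μ : W →ₗ[ℂ] W} (g : V →ₗ[ℂ] W) (hg : ∀ x, μ (g x) = g (ν x)) {x : V}
    (h : x ∈ nil ν) : g x ∈ nil μ := by
  obtain ⟨n, hn⟩ := h
  have e : ∀ (n : ℕ) x, (μ ^ n) (g x) = g ((ν ^ n) x) := by
    intro n
    induction n with
    | zero => exact fun _ => rfl
    | succ n ih => exact fun x => by rw [pow_succ, pow_succ, Module.End.mul_apply, hg, ih]; rfl
  exact ⟨n, by rw [e, hn, map_zero]⟩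

/-- A retraction up to a locally nilpotent operator. -/
theorem qis_nil {M N : GD} (u : Hom M N) (s : N.V →ₗ[ℂ] M.V)
    (hs : ∀ m, ∀ y ∈ N.gr m, s y ∈ M.gr m) (us : ∀ y, u.f (s y) = y) (h ν : M.V →ₗ[ℂ] M.V)
    (hh : ∀ m, ∀ x ∈ M.gr m, h x ∈ M.gr (m - 1)) (uh : ∀ x, u.f (h x) = 0)
    (e : ∀ x, M.d (h x) + h (M.d x) = x - s (u.f x) + ν x) (hν : ∀ x, x ∈ nil ν) : Qis u := by
  have key : ∀ (n : ℕ) (m : ℤ), ∀ x ∈ M.gr m, (ν ^ n) x = 0 → u.f x = 0 → M.d x = 0 →
      ∃ y ∈ M.gr (m - 1), u.f y = 0 ∧ M.d y = x := by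
    intro n
    induction n with
    | zero =>
      intro m x _ h0 _ _
      exact ⟨0, zero_mem _, map_zero _, (map_zero _).trans (Eq.symm h0)⟩
    | succ n ih =>
      intro m x hx h0 hu hd
      have e1 : ν x = M.d (h x) - x := by
        have := e x
        rw [hd, hu, map_zero, map_zero, add_zero, sub_zero] at this
        rw [this, add_sub_cancel_left]
      obtain ⟨y, hy, uy, dy⟩ := ih m (ν x)
        (by rw [e1]; exact sub_mem (M.dgr' (by ring) (hh m x hx)) hx)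
        (by rw [pow_succ] at h0; exact h0) (by rw [e1, map_sub, u.comm, uh, hu, map_zero, sub_zero])
        (by rw [e1, map_sub, M.dd, hd, sub_zero])
      exact ⟨h x - y, sub_mem (hh m x hx) hy, by rw [map_sub, uh, uy, sub_zero],
        by rw [map_sub, dy, e1, sub_sub_cancel]⟩
  have key' : ∀ (m : ℤ), ∀ x ∈ M.gr m, u.f x = 0 → M.d x = 0 →
      ∃ y ∈ M.gr (m - 1), u.f y = 0 ∧ M.d y = x := fun m x hx =>
    (hν x).elim fun n hn => key n m x hx hn
  intro m
  refine ⟨?_, fun y hy hd => ?_⟩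
  · rintro x hx hd ⟨y, hy, ey⟩
    obtain ⟨z, hz, -, ez⟩ := key' m (x - M.d (s y)) (sub_mem hx (M.dgr' (by ring) (hs _ y hy)))
      (by rw [map_sub, u.comm, us, ey, sub_self]) (by rw [map_sub, M.dd, hd, sub_zero])
    exact ⟨z + s y, add_mem hz (hs _ y hy), by rw [map_add, ez, sub_add_cancel]⟩
  · obtain ⟨z, hz, uz, ez⟩ := key' (m + 1) (M.d (s y)) (M.dgr _ _ (hs _ y hy))
      (by rw [u.comm, us, hd]) (M.dd _)
    rw [add_sub_cancel_right] at hz
    exact ⟨s y - z, sub_mem (hs _ y hy) hz, by rw [map_sub, ez, sub_self], 0, zero_mem _,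
      by rw [map_zero, map_sub, us, uz, sub_zero, sub_self]⟩

variable {A B C : DGA}

/-- Restriction of a right module. -/
abbrev rres (φ : NHom A B) (Q : RM B) : RM A where
  toSGD := Q.toSGD
  ra := Q.ra.comp φ.f
  ra_mul a b p := by
    change Q.ra (φ.f (a * b)) p = Q.ra (φ.f b) (Q.ra (φ.f a) p)
    rw [φ.mul, Q.ra_mul]
  leib a p := by
    change Q.d (Q.ra (φ.f a) p) = Q.ra (φ.f a) (Q.d p) + Q.ra (φ.f (A.d a)) (Q.sg p)
    rw [Q.leib, φ.comm]
  sg_ra a p := by
    change Q.sg (Q.ra (φ.f a) p) = Q.ra (φ.f (A.sg a)) (Q.sg p)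
    rw [Q.sg_ra, φ.sg]
  ra_gr m i p a hp ha := Q.ra_gr m i p _ hp (φ.deg i a ha)

/-- The derived extension of scalars. -/
abbrev barL (φ : NHom A B) (N : DGM A) : DGM B where
  toGD := Bar φ.rm N
  act := (Module.End.rTensorAlgHom ℂ B.R (UU N).V).comp (Algebra.lmul ℂ B.R)
  leib b z := bD_rT (P := φ.rm) (P' := φ.rm) (f := LinearMap.mul ℂ B.R b)
    (g := LinearMap.mul ℂ B.R (B.sg b)) (f' := LinearMap.mul ℂ B.R (B.d b)) (map_mul B.sg b)
    (fun _ p => (mul_assoc _ p _).symm) (fun p => eq_sub_of_add_eq (B.leib b p).symm) z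
  act_gr k m b z hb hz := map_tgr (E := B.G) (E' := B.G) (F := UU N) (F' := UU N)
    ((LinearMap.mul ℂ B.R b).rTensor _)
    (fun l l' p x h hp hx => tmul_mem (by omega) (B.mul_gr k l b p hb hp) hx) hz

theorem barL_act (φ : NHom A B) (N : DGM A) (b c : B.R) (x : (UU N).V) :
    (barL φ N).act b (c ⊗ₜ[ℂ] x) = (b * c) ⊗ₜ[ℂ] x := rfl

section Dbl

variable (φ : NHom A B) (Q : RM B) (N : DGM A)

/-- The pairing `q, b ⊗ x ↦ q b ⊗ x`. -/
def pr : Q.V →ₗ[ℂ] (B.R ⊗[ℂ] (UU N).V) →ₗ[ℂ] Q.V ⊗[ℂ] (UU N).V :=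
  (LinearMap.rTensorHom (R := ℂ) (N := B.R) (P := Q.V) (UU N).V).comp Q.ra.flip

theorem pr_tmul (q : Q.V) (b : B.R) (x : (UU N).V) :
    pr Q N q (b ⊗ₜ[ℂ] x) = Q.ra b q ⊗ₜ[ℂ] x := rfl

theorem bD_pr (q : Q.V) (z : B.R ⊗[ℂ] (UU N).V) : bD (rres φ Q) N (pr Q N q z) =
    pr Q N (Q.d q) z + pr Q N (Q.sg q) (bD φ.rm N z) :=
  bD_rT (P := φ.rm) (P' := rres φ Q) (f := Q.ra.flip q) (g := Q.ra.flip (Q.sg q))
    (f' := Q.ra.flip (Q.d q)) (fun b => Q.sg_ra b q) (fun a b => Q.ra_mul b (φ.f a) _)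
    (fun b => by
      change Q.ra b (Q.d q) = Q.d (Q.ra b q) - Q.ra (B.d b) (Q.sg q)
      rw [Q.leib, add_sub_cancel_right]) z

/-- The contraction of the double bar construction. -/
def con : Hom (Bar Q (barL φ N)) (Bar (rres φ Q) N) :=
  ev (P := Q) (N := barL φ N) (M := Bar (rres φ Q) N) (pr Q N)
    (fun b q z => by
      change pr Q N (Q.ra b q) z = pr Q N q ((LinearMap.mul ℂ B.R b).rTensor _ z)
      induction z using TensorProduct.induction_on with
      | zero => simp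
      | tmul c x => exact congrArg (· ⊗ₜ[ℂ] x) (Q.ra_mul b c q).symm
      | add x y hx hy => simp only [map_add, hx, hy])
    (bD_pr φ Q N) fun i j q z hq hz => map_tgr (E := B.G) (E' := Q.toGD) (F := UU N) (F' := UU N)
      (pr Q N q) (fun l l' b x h hb hx => tmul_mem (by omega) (Q.ra_gr i l q b hq hb) hx) hz

/-- The last letter is moved out. -/
def k0 : B.R ⊗[ℂ] (UU N).V →ₗ[ℂ] (UU (barL φ N)).V :=
  TensorProduct.lift ((σ B (barL φ N).toGD).compl₂
    ((i0 B (barL φ N).toGD).comp (TensorProduct.mk ℂ B.R (UU N).V 1)))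

theorem k0_tmul (b : B.R) (x : (UU N).V) : k0 φ N (b ⊗ₜ[ℂ] x) =
    σ B (barL φ N).toGD b (i0 B (barL φ N).toGD ((1 : B.R) ⊗ₜ[ℂ] x)) := rfl

/-- The extra degeneracy. -/
def kk : (UU (barL φ N)).V →ₗ[ℂ] (UU (barL φ N)).V :=
  urec (k0 φ N) 0 (-(σ B (barL φ N).toGD).comp B.sg.toLinearMap)

theorem kk_i0 (l : B.R ⊗[ℂ] (UU N).V) : kk φ N (i0 B (barL φ N).toGD l) = k0 φ N l :=
  urec_i0 _ _ _ _

theorem kk_σ (c : B.R) (y : (UU (barL φ N)).V) : kk φ N (σ B (barL φ N).toGD c y) =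
    - σ B (barL φ N).toGD (B.sg c) (kk φ N y) := by
  rw [kk, urec_σ]
  exact zero_add _

/-- The error term on words of length zero. -/
def n0 : B.R ⊗[ℂ] (UU N).V →ₗ[ℂ] (UU (barL φ N)).V :=
  TensorProduct.lift (((σ B (barL φ N).toGD).comp B.sg.toLinearMap).compl₂
    ((i0 B (barL φ N).toGD).comp ((nu φ.rm N).comp (TensorProduct.mk ℂ B.R (UU N).V 1)))) -
  (k0 φ N).comp (nu φ.rm N)

theorem n0_tmul (b : B.R) (x : (UU N).V) : n0 φ N (b ⊗ₜ[ℂ] x) =
    σ B (barL φ N).toGD (B.sg b) (i0 B (barL φ N).toGD (nu φ.rm N ((1 : B.R) ⊗ₜ[ℂ] x))) -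
      k0 φ N (nu φ.rm N (b ⊗ₜ[ℂ] x)) := rfl

/-- The error term. -/
def nn : (UU (barL φ N)).V →ₗ[ℂ] (UU (barL φ N)).V := urec (n0 φ N) 0 (σ B (barL φ N).toGD)

theorem nn_i0 (l : B.R ⊗[ℂ] (UU N).V) : nn φ N (i0 B (barL φ N).toGD l) = n0 φ N l :=
  urec_i0 _ _ _ _

theorem nn_σ (c : B.R) (y : (UU (barL φ N)).V) : nn φ N (σ B (barL φ N).toGD c y) =
    σ B (barL φ N).toGD c (nn φ N y) := by
  rw [nn, urec_σ]
  exact zero_add _

theorem nn_nil (y : (UU (barL φ N)).V) : y ∈ nil (nn φ N) := by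
  have h : ∀ (x : (UU N).V) (b : B.R), i0 B (barL φ N).toGD (b ⊗ₜ[ℂ] x) ∈ nil (nn φ N) := by
    intro x
    induction x using U0.ind with
    | base n =>
      intro b
      refine nil_of ?_
      rw [nn_i0, n0_tmul, nu_i0 φ.rm, nu_i0 φ.rm, map_zero, map_zero, map_zero, sub_zero]
      exact zero_mem _
    | step a x ih =>
      intro b
      refine nil_of ?_
      rw [nn_i0, n0_tmul, nu_σ φ.rm, nu_σ φ.rm, k0_tmul]
      exact sub_mem (nil_map _ (nn_σ φ N _) (ih _)) (nil_map _ (nn_σ φ N _) (ih _))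
    | add x y hx hy =>
      intro b
      rw [tmul_add, map_add]
      exact add_mem (hx b) (hy b)
  induction y using U0.ind with
  | base l =>
    change B.R ⊗[ℂ] (UU N).V at l
    induction l using TensorProduct.induction_on with
    | zero => rw [map_zero]; exact zero_mem _
    | tmul b x => exact h x b
    | add x y hx hy => rw [map_add]; exact add_mem hx hy
  | step c y ih => exact nil_map _ (nn_σ φ N c) ih
  | add x y hx hy => exact add_mem hx hy

theorem kk_ua (c : B.R) (y : (UU (barL φ N)).V) :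
    kk φ N (ua (barL φ N) c y) = ua (barL φ N) (B.sg c) (kk φ N y) := by
  induction y using U0.ind with
  | base l =>
    rw [ua_i0, kk_i0, kk_i0]
    change B.R ⊗[ℂ] (UU N).V at l
    induction l using TensorProduct.induction_on with
    | zero => simp
    | tmul b x => rw [barL_act, k0_tmul, k0_tmul, ua_σ, B.sg_sg]
    | add x y hx hy => simp only [map_add, hx, hy]
  | step e y _ => rw [ua_σ, kk_σ, kk_σ, map_neg, ua_σ, map_mul, B.sg_sg]
  | add x y hx hy => simp only [map_add, hx, hy]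

theorem dk (y : (UU (barL φ N)).V) :
    (UU (barL φ N)).d (kk φ N y) + ub (barL φ N) (kk φ N y) +
      (kk φ N ((UU (barL φ N)).d y) + kk φ N (ub (barL φ N) y)) = y + nn φ N y := by
  induction y using U0.ind with
  | base l =>
    rw [kk_i0, d_i0, kk_i0, ub_i0, nn_i0, map_zero, add_zero]
    change B.R ⊗[ℂ] (UU N).V at l
    induction l using TensorProduct.induction_on with
    | zero => simp
    | tmul b x =>
      have e1 : ∀ (b : B.R) (x : (UU N).V), (barL φ N).d (b ⊗ₜ[ℂ] x) = B.d b ⊗ₜ[ℂ] x +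
        B.sg b ⊗ₜ[ℂ] (UU N).d x + (B.sg b ⊗ₜ[ℂ] ub N x - nu φ.rm N (b ⊗ₜ[ℂ] x)) := fun _ _ => rfl
      rw [k0_tmul, d_σ, ub_σ, ub_i0, ua_i0, d_i0, barL_act, e1, e1, n0_tmul, mul_one, B.d_one,
        map_one B.sg, zero_tmul]
      simp only [map_add, map_sub, k0_tmul, map_zero]
      abel
    | add x y hx hy =>
      simp only [map_add] at hx hy ⊢
      rw [add_add_add_comm _ _ (n0 φ N x), ← hx, ← hy]
      abel
  | step c y ih =>
    have h := congrArg (σ B (barL φ N).toGD c) ih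
    have a1 : ∀ c y, kk φ N (σ B (Bar φ.rm N) c y) = - σ B (Bar φ.rm N) (B.sg c) (kk φ N y) :=
      kk_σ φ N
    have a2 : ∀ c y, ub (barL φ N) (σ B (Bar φ.rm N) c y) =
      ua (barL φ N) c y - σ B (Bar φ.rm N) (B.sg c) (ub (barL φ N) y) := ub_σ (barL φ N)
    rw [kk_σ, d_σ c, ub_σ _ c, nn_σ]
    simp only [map_add, map_sub, map_neg, a1, kk_ua, d_σ, a2, B.sg_sg, B.d_sg,
      LinearMap.neg_apply] at h ⊢
    rw [← h]
    abel
  | add x y hx hy =>
    simp only [map_add] at hx hy ⊢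
    rw [add_add_add_comm _ _ (nn φ N x), ← hx, ← hy]
    abel

theorem kk_mem {m : ℤ} {y : (UU (barL φ N)).V} (hy : y ∈ (UU (barL φ N)).gr m) :
    kk φ N y ∈ (UU (barL φ N)).gr (m - 1) :=
  gr_ind (fun m => ((UU (barL φ N)).gr (m - 1)).comap (kk φ N))
    (fun m l hl => by
      rw [Submodule.mem_comap, kk_i0]
      exact tgr_le (E := B.G) (F := UU N) (P := ((UU (barL φ N)).gr (m - 1)).comap (k0 φ N))
        (fun i j b x h hb hx => σ_mem (by omega) hb
          (i0_mem (tmul_mem (E := B.G) (F := UU N) (zero_add j) B.one_gr hx))) hl)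
    (fun i j c y hc _ h => by
      rw [Submodule.mem_comap, kk_σ]
      exact neg_mem (σ_mem (by omega) (B.sg_mem hc) h)) hy

theorem p0_kk (y : (UU (barL φ N)).V) : p0 B (barL φ N).toGD (kk φ N y) = 0 := by
  induction y using U0.ind with
  | base l =>
    rw [kk_i0]
    change B.R ⊗[ℂ] (UU N).V at l
    induction l using TensorProduct.induction_on with
    | zero => simp
    | tmul b x => rw [k0_tmul, p0_σ]
    | add x y hx hy => simp only [map_add, hx, hy, add_zero]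
  | step c y _ => rw [kk_σ, map_neg, p0_σ, neg_zero]
  | add x y hx hy => simp only [map_add, hx, hy, add_zero]

theorem con_tmul (q : Q.V) (y : (UU (barL φ N)).V) :
    (con φ Q N).f (q ⊗ₜ[ℂ] y) = pr Q N q (p0 B (barL φ N).toGD y) := rfl

/-- The contraction is a quasi-isomorphism. -/
theorem qis_con (h1 : ∀ q, Q.ra 1 q = q) : Qis (con φ Q N) := by
  let s : Q.V ⊗[ℂ] (UU N).V →ₗ[ℂ] Q.V ⊗[ℂ] (UU (barL φ N)).V :=
    ((i0 B (barL φ N).toGD).comp (TensorProduct.mk ℂ B.R (UU N).V 1)).lTensor _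
  have hs : ∀ q x, s (q ⊗ₜ[ℂ] x) = q ⊗ₜ[ℂ] i0 B (barL φ N).toGD ((1 : B.R) ⊗ₜ[ℂ] x) :=
    fun _ _ => rfl
  refine qis_nil _ s (fun m z hz => ?_) (fun z => ?_) (TensorProduct.map Q.sg (kk φ N))
    ((nn φ N).lTensor Q.V) (fun m z hz => ?_) (fun z => ?_) (fun z => ?_) fun z => ?_
  · exact map_tgr (E := Q.toGD) (E' := Q.toGD) (F := UU N) (F' := UU (barL φ N)) s
      (fun i j q x h hq hx => tmul_mem h hq
        (i0_mem (tmul_mem (E := B.G) (F := UU N) (zero_add j) B.one_gr hx))) hz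
  · change Q.V ⊗[ℂ] (UU N).V at z
    induction z using TensorProduct.induction_on with
    | zero => simp
    | tmul q x => rw [hs, con_tmul, p0_i0, pr_tmul, h1]
    | add x y hx hy => simp only [map_add, hx, hy]
  · exact map_tgr (E := Q.toGD) (E' := Q.toGD) (F := UU (barL φ N)) (F' := UU (barL φ N)) _
      (fun i j q x h hq hx => tmul_mem (by omega) (Q.toSGD.sg_mem hq) (kk_mem φ N hx)) hz
  · change Q.V ⊗[ℂ] (UU (barL φ N)).V at z
    induction z using TensorProduct.induction_on with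
    | zero => simp
    | tmul q x => rw [map_tmul, con_tmul, p0_kk, map_zero]
    | add x y hx hy => simp only [map_add, hx, hy, add_zero]
  · change bD Q (barL φ N) (TensorProduct.map Q.sg (kk φ N) z) +
      TensorProduct.map Q.sg (kk φ N) (bD Q (barL φ N) z) = _
    have e : ∀ (q : Q.V) y, nu Q (barL φ N) (Q.sg q ⊗ₜ[ℂ] kk φ N y) +
        TensorProduct.map Q.sg (kk φ N) (nu Q (barL φ N) (q ⊗ₜ[ℂ] y)) =
          s ((con φ Q N).f (q ⊗ₜ[ℂ] y)) := by
      intro q y
      induction y using U0.ind with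
      | base l =>
        rw [nu_i0, map_zero, add_zero, kk_i0, con_tmul, p0_i0]
        change B.R ⊗[ℂ] (UU N).V at l
        induction l using TensorProduct.induction_on with
        | zero => simp
        | tmul b x => rw [k0_tmul, nu_σ, Q.sg_sg, pr_tmul, hs]
        | add x y hx hy => simp only [map_add, tmul_add, hx, hy]
      | step c y _ =>
        rw [kk_σ, tmul_neg, map_neg, nu_σ, nu_σ, map_tmul, Q.sg_ra, con_tmul, p0_σ, map_zero,
          map_zero, neg_add_cancel]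
      | add x y hx hy =>
        simp only [map_add, tmul_add] at hx hy ⊢
        rw [← hx, ← hy]
        abel
    change Q.V ⊗[ℂ] (UU (barL φ N)).V at z
    induction z using TensorProduct.induction_on with
    | zero => simp
    | tmul q y =>
      have h := congrArg (q ⊗ₜ[ℂ] ·) (dk φ N y)
      rw [← e, map_tmul, bD_tmul, bD_tmul, LinearMap.lTensor_tmul]
      simp only [map_add, map_sub, map_tmul, Q.sg_sg, Q.sg_d, neg_tmul, tmul_add] at h ⊢
      rw [sub_add_eq_add_sub, ← h]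
      abel
    | add x y hx hy =>
      simp only [map_add] at hx hy ⊢
      rw [add_add_add_comm, hx, hy]
      abel
  · change Q.V ⊗[ℂ] (UU (barL φ N)).V at z
    induction z using TensorProduct.induction_on with
    | zero => exact zero_mem _
    | tmul q y =>
      exact nil_map (TensorProduct.mk ℂ Q.V _ q) (fun _ => rfl) (nn_nil φ N y)
    | add x y hx hy => exact add_mem hx hy

end Dbl

section Ext

variable {φ : NHom A B} {N : DGM A} {N' : DGM B} (u : Hom N.toGD N'.toGD)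
  (hu : ∀ a x, u.f (N.act a x) = N'.act (φ.f a) (u.f x))

/-- The map from the derived extension of scalars. -/
def evx : Hom (Bar φ.rm N) N'.toGD :=
  ev (P := φ.rm) (N'.act.toLinearMap.compl₂ u.f)
    (fun a b x => (N'.act_mul b _ _).trans (congrArg (N'.act b) (hu a x).symm))
    (fun b x => (N'.leib b _).trans (congrArg (fun y => _ + N'.act _ y) (u.comm x).symm))
    fun i j b x hb hx => N'.act_gr i j b _ hb (u.deg j x hx)

theorem evx_tmul (b : B.R) (x : (UU N).V) : (evx u hu).f (b ⊗ₜ[ℂ] x : B.R ⊗[ℂ] (UU N).V) =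
    N'.act b (u.f (p0 A N.toGD x)) := rfl

/-- The identity, as a morphism over `φ`. -/
def rid (φ : NHom A B) (Q : RM B) : RHom φ (rres φ Q) Q := ⟨Hom.id _, fun _ => rfl, fun _ _ => rfl⟩

/-- **Change of rings.** -/
theorem qis_ext (h : Qis (evx u hu)) (Q : RM B) (hQ : IsInternal Q.gr) (h1 : ∀ q, Q.ra 1 q = q) :
    Qis (bh (rid φ Q) u hu) := by
  let w : Hom (barL φ N).toGD (barL (NHom.id B) N').toGD :=
    bh (P := φ.rm) (P' := B.rm) (τ := φ) ⟨Hom.id _, fun _ => rfl, fun _ _ => rfl⟩ u hu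
  have hw : ∀ (b : B.R) (x : (UU N).V), w.f (b ⊗ₜ[ℂ] x : B.R ⊗[ℂ] (UU N).V) =
      (b ⊗ₜ[ℂ] mp (al φ 0) u.f x : B.R ⊗[ℂ] (UU N').V) := fun b x =>
    (bm_tmul (P := φ.rm) (P' := B.rm) _ _ _ _ b x).trans (by rw [ssz_zero]; rfl)
  have wa : ∀ b z, w.f ((barL φ N).act b z) =
      (barL (NHom.id B) N').act ((NHom.id B).f b) (w.f z) := by
    intro b z
    change B.R ⊗[ℂ] (UU N).V at z
    induction z using TensorProduct.induction_on with
    | zero => simp
    | tmul c x => rw [barL_act, hw, hw]; rfl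
    | add x y hx hy => simp only [map_add, hx, hy]
  have qw : Qis w := (qis_tri (u := w) (v := eps N') (w := evx u hu) fun z => by
    change B.R ⊗[ℂ] (UU N).V at z
    induction z using TensorProduct.induction_on with
    | zero => simp
    | tmul c x => rw [hw, eps_tmul, evx_tmul, p0_mp]
    | add x y hx hy => simp only [map_add, hx, hy]).2.2 (qis_eps N') h
  refine (qis_sq (u := bh (RH.id Q) w wa) (a := con φ Q N) (b := con (NHom.id B) Q N')
    (fun z => ?_) (qis_con φ Q N h1) (qis_con _ Q N' h1)).1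
    (qis_bh (fun _ => rfl) _ w wa hQ hQ (Qis.id _) qw)
  refine evL_bm (w := (bh (rid φ Q) u hu).f) (fun q l => ?_) z
  change B.R ⊗[ℂ] (UU N).V at l
  induction l using TensorProduct.induction_on with
  | zero => simp
  | tmul c x =>
    rw [hw]
    exact ((bm_tmul (P := rres φ Q) (P' := Q) _ _ _ _ _ x).trans (by rw [ssz_zero]; rfl)).symm
  | add x y hx hy => simp only [map_add, hx, hy]

end Ext

end

end Vale.Agent.P286EG3
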