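import Vale.Agent.P286EX.Spec

/-!
# Flat base change for cohomology modules
-/

namespace Vale.Agent.P286EG3

open Vale.Agent.P286 Vale.Agent.P286EG Vale.Agent.P286EX Vale.Agent.P286.H847 TensorProduct

noncomputable section

theorem hiso_iff {X₁ X₂ X₃ Y₁ Y₂ Y₃ Z H Z' H' : Type} [AddCommGroup X₁] [AddCommGroup X₂]
    [AddCommGroup X₃] [AddCommGroup Y₁] [AddCommGroup Y₂] [AddCommGroup Y₃] [AddCommGroup Z]
    [AddCommGroup H] [AddCommGroup Z'] [AddCommGroup H'] {d₁ : X₁ → X₂} {d₂ : X₂ → X₃}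
    {e₁ : Y₁ → Y₂} {e₂ : Y₂ → Y₃} {u : X₂ → Y₂} (ι : Z → X₂) (hι : Function.Injective ι)
    (ex : Function.Exact ι d₂) (δ : X₁ → Z) (hδ : ∀ x, ι (δ x) = d₁ x) (π : Z → H)
    (hπ : Function.Surjective π) (ex' : Function.Exact δ π) (ι' : Z' →+ Y₂)
    (hι' : Function.Injective ι') (ey : Function.Exact ι' e₂) (δ' : Y₁ → Z')
    (hδ' : ∀ x, ι' (δ' x) = e₁ x) (π' : Z' →+ H') (hπ' : Function.Surjective π')
    (ey' : Function.Exact δ' π') (v : Z → Z') (hv : ∀ z, ι' (v z) = u (ι z)) (g : H →+ H')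
    (hg : ∀ z, g (π z) = π' (v z)) : St.HIso d₁ d₂ e₁ e₂ u ↔ Function.Bijective g := by
  constructor
  · rintro ⟨h1, h2⟩
    refine ⟨(injective_iff_map_eq_zero g).2 fun x hx => ?_, fun y => ?_⟩
    · obtain ⟨z, rfl⟩ := hπ x
      obtain ⟨y, hy⟩ := (ey' _).1 ((hg z).symm.trans hx)
      obtain ⟨x, e⟩ := h1 (ι z) ((ex _).2 ⟨z, rfl⟩) ⟨y, by rw [← hδ', hy, hv]⟩
      exact (ex' z).2 ⟨x, hι ((hδ x).trans e)⟩
    · obtain ⟨z', rfl⟩ := hπ' y
      obtain ⟨x, hx, y, e⟩ := h2 (ι' z') ((ey _).2 ⟨z', rfl⟩)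
      obtain ⟨z, rfl⟩ := (ex x).1 hx
      refine ⟨π z, (hg z).trans (sub_eq_zero.1 ?_).symm⟩
      rw [← map_sub]
      exact (ey' _).2 ⟨y, hι' (by rw [hδ', e, map_sub, hv])⟩
  · intro h
    refine ⟨?_, fun y hy => ?_⟩
    · rintro x hx ⟨y, e⟩
      obtain ⟨z, rfl⟩ := (ex x).1 hx
      obtain ⟨x, e'⟩ := (ex' z).1 ((injective_iff_map_eq_zero g).1 h.1 _ ((hg z).trans
        ((ey' _).2 ⟨y, hι' (by rw [hδ', e, hv])⟩)))
      exact ⟨x, by rw [← hδ, e']⟩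
    · obtain ⟨z', rfl⟩ := (ey y).1 hy
      obtain ⟨x, e⟩ := h.2 (π' z')
      obtain ⟨z, rfl⟩ := hπ x
      obtain ⟨y, e'⟩ := (ey' (z' - v z)).1 (by rw [map_sub, ← hg, e, sub_self])
      exact ⟨ι z, (ex _).2 ⟨z, rfl⟩, y, by rw [← hδ', e', map_sub, hv]⟩

variable {A B C : Type} [CommRing A] [CommRing B] [CommRing C]

/-- The cycles. -/
def ZA (M : AG A) (q : ℤ) : Submodule A (M.T q) := LinearMap.ker (M.dT q (q + 1))

/-- The differential with values in the cycles. -/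
def dA (M : AG A) (q : ℤ) : M.T (q - 1) →ₗ[A] ZA M q :=
  (M.dT (q - 1) q).codRestrict _ (M.mc.dd_apply (q - 1) q (q + 1))

/-- The cohomology module. -/
def HA (M : AG A) (q : ℤ) : Type := ZA M q ⧸ LinearMap.range (dA M q)

instance (M : AG A) (q : ℤ) : AddCommGroup (HA M q) := Submodule.Quotient.addCommGroup _

instance (M : AG A) (q : ℤ) : Module A (HA M q) := Submodule.Quotient.module _

/-- The projection. -/
def pA (M : AG A) (q : ℤ) : ZA M q →ₗ[A] HA M q := (LinearMap.range (dA M q)).mkQ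

variable {M M' : AG A} {N N' : AG B} {R : AG C} {q : ℤ} {f : A →+* B}

theorem pA_surj : Function.Surjective (pA M q) := Submodule.mkQ_surjective _

theorem pA_exact : Function.Exact (dA M q) (pA M q) := fun _ => Submodule.Quotient.mk_eq_zero _

theorem za_cy (z : ZA M q) : Cy M.G q (M.val q z.1) :=
  ⟨M.val_mem _, (M.val_d rfl _).symm.trans ((congrArg (M.val _) z.2).trans (map_zero _))⟩

/-- A cycle. -/
def zel (M : AG A) {x : M.G.V} (h : Cy M.G q x) : ZA M q :=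
  ⟨M.el x h.1, M.val_inj ((M.val_d rfl _).trans (h.2.trans (map_zero _).symm))⟩

/-- The class of a cycle. -/
def cl (M : AG A) {x : M.G.V} (h : Cy M.G q x) : HA M q := pA M q (zel M h)

theorem cl_surj (m : HA M q) : ∃ (x : M.G.V) (h : Cy M.G q x), cl M h = m := by
  obtain ⟨z, rfl⟩ := pA_surj m
  exact ⟨_, za_cy z, rfl⟩

theorem pA_zero (z : ZA M q) : pA M q z = 0 ↔ Bd M.G q (M.val q z.1) :=
  (pA_exact z).trans ⟨fun ⟨y, h⟩ => ⟨_, M.val_mem y, (M.val_d (by ring) y).symm.trans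
    (congrArg (fun z : ZA M q => M.val q z.1) h)⟩,
    fun ⟨y, hy, h⟩ => ⟨M.el y hy, Subtype.ext (M.val_inj ((M.val_d (by ring) _).trans h))⟩⟩

theorem cl_zero {x : M.G.V} (h : Cy M.G q x) : cl M h = 0 ↔ Bd M.G q x := pA_zero _

theorem cl_eq {x y : M.G.V} (h : Cy M.G q x) (h' : Cy M.G q y) :
    cl M h = cl M h' ↔ Bd M.G q (x - y) := by
  rw [← sub_eq_zero, cl, cl, ← map_sub, pA_zero]
  rfl

theorem cy_map {M N : GD} (u : GD.Hom M N) {x : M.V} (h : Cy M q x) : Cy N q (u.f x) :=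
  ⟨u.deg q x h.1, by rw [← u.comm, h.2, map_zero]⟩

theorem bd_map {M N : GD} (u : GD.Hom M N) {x : M.V} (h : Bd M q x) : Bd N q (u.f x) := by
  obtain ⟨y, hy, rfl⟩ := h
  exact ⟨u.f y, u.deg _ y hy, (u.comm y).symm⟩

/-- The map on cycles. -/
def zm (M : AG A) (N : AG B) (u : GD.Hom M.G N.G) (q : ℤ) : ZA M q →+ ZA N q :=
  AddMonoidHom.mk' (fun z => zel N (cy_map u (za_cy z))) fun _ _ =>
    Subtype.ext (N.val_inj (map_add u.f _ _))

/-- The map on cohomology. -/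
def hm (M : AG A) (N : AG B) (u : GD.Hom M.G N.G) (q : ℤ) : HA M q →+ HA N q :=
  QuotientAddGroup.lift (LinearMap.range (dA M q)).toAddSubgroup
    ((pA N q).toAddMonoidHom.comp (zm M N u q)) fun z hz =>
      (pA_zero _).2 (bd_map u ((pA_zero z).1 ((pA_exact z).2 hz)))

theorem hm_cl (u : GD.Hom M.G N.G) {x : M.G.V} (h : Cy M.G q x) :
    hm M N u q (cl M h) = cl N (cy_map u h) := rfl

theorem hm_sl {u : GD.Hom M.G N.G} (h : Sl f M N u) (a : A) (m : HA M q) :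
    hm M N u q (a • m) = f a • hm M N u q m := by
  obtain ⟨z, rfl⟩ := pA_surj m
  rw [← map_smul]
  exact (congrArg (pA N q) (Subtype.ext (N.val_inj (h a _)) :
    zm M N u q (a • z) = f a • zm M N u q z)).trans (map_smul _ _ _)

/-- The map on cohomology is linear. -/
def hl {u : GD.Hom M.G M'.G} (h : Li M M' u) (q : ℤ) : HA M q →ₗ[A] HA M' q :=
  ⟨⟨hm M M' u q, map_add _⟩, hm_sl h⟩

theorem hm_sq {D : Type} [CommRing D] {S : AG D} {u : GD.Hom M.G N.G} {v : GD.Hom N.G S.G}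
    {u' : GD.Hom M.G R.G} {v' : GD.Hom R.G S.G} (h : ∀ x, v.f (u.f x) = v'.f (u'.f x))
    (m : HA M q) : hm N S v q (hm M N u q m) = hm R S v' q (hm M R u' q m) := by
  obtain ⟨z, rfl⟩ := pA_surj m
  exact congrArg (pA S q) (Subtype.ext (S.val_inj (h _)))

/-- The map from the base change of the cohomology. -/
def hb {u : GD.Hom M.G N.G} (h : Sl f M N u) (q : ℤ) : ExtS f (HA M q) →+ HA N q :=
  ExtS.lift f (hm M N u q) (hm_sl h)

theorem ext_el {P W : Type} [AddCommGroup P] [Module A P] [AddCommGroup W] {u v : ExtS f P →+ W}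
    (h : ∀ b x, u (ExtS.el f b x) = v (ExtS.el f b x)) (w : ExtS f P) : u w = v w :=
  Br.el_ind f (motive := fun w => u w = v w) (u.map_zero.trans v.map_zero.symm) h
    (fun x y hx hy => (u.map_add x y).trans
      ((congrArg₂ (· + ·) hx hy).trans (v.map_add x y).symm)) w

/-- **Flat base change.** -/
theorem db_cls [Algebra ℂ A] (hf : f.Flat) {t : GD.Hom M.G N.G} (ht : Sl f M N t) :
    DB f M N t ↔ ∀ q, Function.Bijective (hb ht q) := by
  let _ := f.toAlgebra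
  have : Module.Flat A B := hf
  have key : ∀ q, St.HIso ((bcx f M.mc).d (q - 1) q) ((bcx f M.mc).d q (q + 1)) (N.dT (q - 1) q)
      (N.dT q (q + 1)) ((bm _ ht.sl).f q) ↔ Function.Bijective (hb ht q) := fun q =>
    hiso_iff ((ZA M q).subtype.lTensor B)
      (Module.Flat.lTensor_preserves_injective_linearMap _ Subtype.val_injective)
      (Module.Flat.lTensor_exact B (LinearMap.exact_subtype_ker_map (M.dT q (q + 1))))
      ((dA M q).lTensor B) (fun x => (LinearMap.lTensor_comp_apply ..).symm)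
      ((pA M q).lTensor B) (LinearMap.lTensor_surjective B pA_surj)
      (Module.Flat.lTensor_exact B pA_exact) (ZA N q).subtype.toAddMonoidHom Subtype.val_injective
      (LinearMap.exact_subtype_ker_map (N.dT q (q + 1))) (dA N q) (fun _ => rfl)
      (pA N q).toAddMonoidHom pA_surj pA_exact
      (ExtS.lift f (zm M N t q) fun a z => Subtype.ext (N.val_inj (ht a _)))
      (ext_el (u := (ZA N q).subtype.toAddMonoidHom.comp (ExtS.lift f (zm M N t q) _))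
        (v := ((bm _ ht.sl).f q).comp ((ZA M q).subtype.lTensor B).toAddMonoidHom) fun _ _ => rfl)
      (hb ht q) (ext_el (u := (hb ht q).comp ((pA M q).lTensor B).toAddMonoidHom)
        (v := (pA N q).toAddMonoidHom.comp (ExtS.lift f (zm M N t q) _))
        fun b _ => (map_smul (pA N q) b _).symm)
  rw [db_flat hf ht]
  refine ⟨fun h q => (key q).1 (h _ _ _ (by ring) rfl), fun h i j k hi hj => ?_⟩
  obtain rfl : i = j - 1 := by omega
  subst hj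
  exact (key j).2 (h j)

/-- The cohomology of the source of `E` is the kernel of `δ` on cohomology. -/
structure Ex {N M₁ M₂ : GD} (E : GD.Hom N M₁) (δ : GD.Hom M₁ M₂) : Prop where
  inv : ∀ m x, Cy N m x → Bd M₂ m (δ.f (E.f x))
  inj : ∀ m x, Cy N m x → Bd M₁ m (E.f x) → Bd N m x
  sur : ∀ m z, Cy M₁ m z → Bd M₂ m (δ.f z) → ∃ x, Cy N m x ∧ Bd M₁ m (z - E.f x)

theorem Ex.injective {E : GD.Hom M.G N.G} {P : GD} {δ : GD.Hom N.G P} (h : Ex E δ) (q : ℤ) :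
    Function.Injective (hm M N E q) := (injective_iff_map_eq_zero _).2 fun m hm' => by
  obtain ⟨x, hx, rfl⟩ := cl_surj m
  exact (cl_zero hx).2 (h.inj q x hx ((cl_zero (M := N) (cy_map E hx)).1 hm'))

theorem Ex.exact {E : GD.Hom M.G N.G} {δ : GD.Hom N.G R.G} (h : Ex E δ) (q : ℤ) :
    Function.Exact (hm M N E q) (hm N R δ q) := fun m => by
  constructor
  · obtain ⟨z, hz, rfl⟩ := cl_surj m
    intro h0
    obtain ⟨x, hx, e⟩ := h.sur q z hz ((cl_zero (M := R) (cy_map δ hz)).1 h0)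
    exact ⟨cl M hx, ((cl_eq (M := N) hz (cy_map E hx)).2 e).symm⟩
  · rintro ⟨m, rfl⟩
    obtain ⟨x, hx, rfl⟩ := cl_surj m
    exact (cl_zero (M := R) (cy_map δ (cy_map E hx))).2 (h.inv q x hx)

/-- The map `u` is bijective on the kernels in cohomology. -/
def KB {P₁ P₂ Q₁ Q₂ : GD} (u : GD.Hom P₁ Q₁) (δ : GD.Hom P₁ P₂) (ε : GD.Hom Q₁ Q₂) : Prop := ∀ m,
  (∀ x, Cy P₁ m x → Bd P₂ m (δ.f x) → Bd Q₁ m (u.f x) → Bd P₁ m x) ∧
    ∀ z, Cy Q₁ m z → Bd Q₂ m (ε.f z) → ∃ x, Cy P₁ m x ∧ Bd P₂ m (δ.f x) ∧ Bd Q₁ m (z - u.f x)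

theorem kb_of_qis {P₁ P₂ Q₁ Q₂ : GD} {u : GD.Hom P₁ Q₁} {δ : GD.Hom P₁ P₂} {ε : GD.Hom Q₁ Q₂}
    {v : GD.Hom P₂ Q₂} (hu : GD.Qis u) (hv : GD.Qis v) (e : ∀ x, ε.f (u.f x) = v.f (δ.f x)) :
    KB u δ ε := fun m => by
  refine ⟨fun x hx _ h => (hu m).1 x hx.1 hx.2 h, fun z hz h => ?_⟩
  obtain ⟨x, hx, hd, hb⟩ := (hu m).2 z hz.1 hz.2
  refine ⟨x, ⟨hx, hd⟩, (hv m).1 _ (cy_map δ ⟨hx, hd⟩).1 (cy_map δ ⟨hx, hd⟩).2 ?_, hb⟩
  obtain ⟨y, hy, ey⟩ := h
  obtain ⟨y', hy', ey'⟩ := bd_map ε hb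
  exact ⟨y - y', sub_mem hy hy', by rw [map_sub, ey, ey', map_sub, e, sub_sub_cancel]⟩

theorem cart_abs [Algebra ℂ A] (hf : f.Flat) {N M₁ M₂ : AG A} {N' P₁ P₂ Q₁ Q₂ : AG B}
    {E : GD.Hom N.G M₁.G} {δ : GD.Hom M₁.G M₂.G} (lE : Li N M₁ E) (lδ : Li M₁ M₂ δ) (hE : Ex E δ)
    {t₁ : GD.Hom M₁.G P₁.G} {t₂ : GD.Hom M₂.G P₂.G} (h₁ : DB f M₁ P₁ t₁) (h₂ : DB f M₂ P₂ t₂)
    {δ' : GD.Hom P₁.G P₂.G} (lδ' : Li P₁ P₂ δ') (e₁ : ∀ x, δ'.f (t₁.f x) = t₂.f (δ.f x))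
    {u : GD.Hom P₁.G Q₁.G} (lu : Li P₁ Q₁ u) {E' : GD.Hom N'.G Q₁.G} {ε : GD.Hom Q₁.G Q₂.G}
    (lE' : Li N' Q₁ E') (hE' : Ex E' ε) {ρ : GD.Hom N.G N'.G} (hρ : Sl f N N' ρ)
    (e₂ : ∀ x, E'.f (ρ.f x) = u.f (t₁.f (E.f x))) : DB f N N' ρ ↔ KB u δ' ε := by
  let _ := f.toAlgebra
  have : Module.Flat A B := hf
  rw [db_cls hf hρ]
  refine forall_congr' fun q => ?_
  have b₁ := (db_cls hf h₁.1).1 h₁ q
  have b₂ := (db_cls hf h₂.1).1 h₂ q
  let Ψ : ExtS f (HA N q) →+ HA P₁ q := (hb h₁.1 q).comp ((hl lE q).lTensor B).toAddMonoidHom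
  have i₁ : Function.Injective Ψ := b₁.1.comp
    (Module.Flat.lTensor_preserves_injective_linearMap (M := B) (hl lE q) (hE.injective q))
  have c₁ : ∀ w, hm P₁ P₂ δ' q (hb h₁.1 q w) = hb h₂.1 q ((hl lδ q).lTensor B w) :=
    ext_el (u := (hm P₁ P₂ δ' q).comp (hb h₁.1 q))
      (v := (hb h₂.1 q).comp ((hl lδ q).lTensor B).toAddMonoidHom)
      fun b x => (hm_sl lδ' b _).trans (congrArg (b • ·) (hm_sq e₁ x))
  have x₀ := Module.Flat.lTensor_exact B (f := hl lE q) (g := hl lδ q) (hE.exact q)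
  have x₁ : Function.Exact Ψ (hm P₁ P₂ δ' q) := fun y => by
    obtain ⟨w, rfl⟩ := b₁.2 y
    rw [c₁, map_eq_zero_iff _ b₂.1]
    exact (x₀ w).trans ⟨fun ⟨w', e⟩ => ⟨w', congrArg (hb h₁.1 q) e⟩, fun ⟨w', e⟩ => ⟨w', b₁.1 e⟩⟩
  have c₂ : ∀ w, hm P₁ Q₁ u q (Ψ w) = hm N' Q₁ E' q (hb hρ q w) :=
    ext_el (u := (hm P₁ Q₁ u q).comp Ψ) (v := (hm N' Q₁ E' q).comp (hb hρ q)) fun b x =>
      (hm_sl lu b _).trans ((congrArg (b • ·) (hm_sq (u := t₁.comp E) (fun x => (e₂ x).symm) x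
        |>.symm.trans (by obtain ⟨z, rfl⟩ := pA_surj x; rfl) |>.symm)).trans (hm_sl lE' b _).symm)
  have i₂ := hE'.injective (M := N') (N := Q₁) q
  have x₂ := hE'.exact (M := N') (N := Q₁) (R := Q₂) q
  constructor
  · intro h
    refine ⟨fun x hx h1 h2 => (cl_zero (M := P₁) hx).1 ?_, fun z hz h1 => ?_⟩
    · obtain ⟨w, e⟩ := (x₁ (cl P₁ hx)).1 ((cl_zero (M := P₂) (cy_map δ' hx)).2 h1)
      have h3 := c₂ w
      rw [e, hm_cl, (cl_zero (M := Q₁) (cy_map u hx)).2 h2, eq_comm, map_eq_zero_iff _ i₂,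
        map_eq_zero_iff _ h.1] at h3
      rw [← e, h3, map_zero]
    · obtain ⟨n, e⟩ := (x₂ (cl Q₁ hz)).1 ((cl_zero (M := Q₂) (cy_map ε hz)).2 h1)
      obtain ⟨w, rfl⟩ := h.2 n
      obtain ⟨x, hx, e'⟩ := cl_surj (Ψ w)
      refine ⟨x, hx, (cl_zero (M := P₂) (cy_map δ' hx)).1 ((x₁ (cl P₁ hx)).2 ⟨w, e'.symm⟩),
        (cl_eq (M := Q₁) hz (cy_map u hx)).1 ?_⟩
      rw [← e, ← c₂, ← e', hm_cl]
  · rintro ⟨h1, h2⟩
    refine ⟨(injective_iff_map_eq_zero _).2 fun w hw => ?_, fun n => ?_⟩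
    · obtain ⟨x, hx, e⟩ := cl_surj (Ψ w)
      have h3 := c₂ w
      rw [hw, map_zero, ← e, hm_cl, cl_zero] at h3
      rw [← map_eq_zero_iff _ i₁, ← e, cl_zero]
      exact h1 x hx ((cl_zero (M := P₂) (cy_map δ' hx)).1 ((x₁ (cl P₁ hx)).2 ⟨w, e.symm⟩)) h3
    · obtain ⟨z, hz, e⟩ := cl_surj (hm N' Q₁ E' q n)
      obtain ⟨x, hx, h3, h4⟩ := h2 z hz
        ((cl_zero (M := Q₂) (cy_map ε hz)).1 ((x₂ (cl Q₁ hz)).2 ⟨n, e.symm⟩))
      obtain ⟨w, e'⟩ := (x₁ (cl P₁ hx)).1 ((cl_zero (M := P₂) (cy_map δ' hx)).2 h3)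
      refine ⟨w, i₂ ?_⟩
      rw [← c₂, e', ← e, hm_cl]
      exact ((cl_eq (M := Q₁) hz (cy_map u hx)).2 h4).symm

/-- A push-out square along a flat map. -/
theorem db_po {A B A' B' : Type} [CommRing A] [Algebra ℂ A] [CommRing B] [Algebra ℂ B]
    [CommRing A'] [Algebra ℂ A'] [CommRing B'] [Algebra ℂ B'] (f : A →ₐ[ℂ] B) (a : A →ₐ[ℂ] A')
    (b : B →ₐ[ℂ] B') (f' : A' →ₐ[ℂ] B') (hc : ∀ x, f' (a x) = b (f x)) (hf : (f : A →+* B).Flat)
    (ex : ∀ (T : Type) [CommRing T] [Algebra ℂ T] (g : B →ₐ[ℂ] T) (g' : A' →ₐ[ℂ] T),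
      (∀ x, g' (a x) = g (f x)) → ∃ ψ : B' →ₐ[ℂ] T, (∀ x, ψ (b x) = g x) ∧ ∀ x, ψ (f' x) = g' x)
    (uq : ∀ ψ : B' →ₐ[ℂ] B', (∀ x, ψ (b x) = b x) → (∀ x, ψ (f' x) = f' x) → ∀ x, ψ x = x)
    {M : AG A'} {N : AG B'} {t : GD.Hom M.G N.G} (h : DB (f' : A' →+* B') M N t) :
    DB (f : A →+* B) (M.res a) (N.res b) t := by
  let _ := (f : A →+* B).toAlgebra
  let _ := (a : A →+* A').toAlgebra
  let _ := (b : B →+* B').toAlgebra
  let _ := (f' : A' →+* B').toAlgebra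
  let _ := ((b : B →+* B').comp (f : A →+* B)).toAlgebra
  have : IsScalarTower A B B' := .of_algebraMap_eq fun _ => rfl
  have : IsScalarTower A A' B' := .of_algebraMap_eq fun x => (hc x).symm
  have : IsScalarTower ℂ A B := .of_algebraMap_eq fun x => (f.commutes x).symm
  have : IsScalarTower ℂ A A' := .of_algebraMap_eq fun x => (a.commutes x).symm
  have : IsScalarTower ℂ B B' := .of_algebraMap_eq fun x => (b.commutes x).symm
  let u : B ⊗[A] A' →ₐ[B] B' := Algebra.TensorProduct.lift (Algebra.ofId B B')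
    (IsScalarTower.toAlgHom A A' B') fun _ _ => .all _ _
  have hu : ∀ x y, u (x ⊗ₜ y) = b x * f' y := fun _ _ => rfl
  obtain ⟨ψ, p1, p2⟩ := ex (B ⊗[A] A') Algebra.TensorProduct.includeLeft
    (Algebra.TensorProduct.includeRight.restrictScalars ℂ) fun x =>
      (Algebra.TensorProduct.includeRight (R := A) (A := B) (B := A')).commutes x
  have H : Algebra.IsPushout A B A' B' := ⟨IsBaseChange.of_equiv (LinearEquiv.ofBijective
    u.toLinearMap ⟨Function.LeftInverse.injective (g := ψ) fun z => by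
      induction z using TensorProduct.induction_on with
      | zero => simp
      | tmul x y =>
        refine (congrArg ψ (hu x y)).trans ?_
        rw [map_mul, p1, p2]
        simp
      | add x y hx hy => rw [map_add, map_add, hx, hy],
    Function.RightInverse.surjective (g := ψ) (uq ((u.restrictScalars ℂ).comp ψ)
      (fun x => by
        change u (ψ _) = _
        rw [p1]
        exact (hu x 1).trans (by rw [map_one, mul_one]))
      fun x => by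
        change u (ψ _) = _
        rw [p2]
        exact (hu 1 x).trans (by rw [map_one, one_mul]))⟩)
    fun x => (hu 1 x).trans (by rw [map_one, one_mul]; rfl)⟩
  have hf' : (f' : A' →+* B').Flat :=
    haveI := H
    RingHom.Flat.isStableUnderBaseChange A B A' B' hf
  have hs : Sl (f : A →+* B) (M.res a) (N.res b) t := fun c x =>
    (h.1 _ x).trans (congrArg (N.fn · (t.f x)) (hc c))
  have he : ∀ i, ∃ e : ExtS (f : A →+* B) ((M.res (a : A →+* A')).T i) ≃+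
      ExtS (f' : A' →+* B') (M.T i), ∀ β (x : M.T i), e (ExtS.el _ β x) = ExtS.el _ (b β) x :=
    fun i => by
    let _ : Module A (M.T i) := Module.compHom _ (a : A →+* A')
    have : IsScalarTower A A' (M.T i) := .of_compHom A A' _
    exact ⟨(Algebra.IsPushout.cancelBaseChange A B A' B' (M.T i)).symm.toAddEquiv,
      Algebra.IsPushout.cancelBaseChange_symm_tmul A B A' B' (M.T i)⟩
  choose e he using he
  let E : AH (bcx (f : A →+* B) (M.res (a : A →+* A')).mc) (bcx (f' : A' →+* B') M.mc) :=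
    ⟨fun i => (e i).toAddMonoidHom, fun i j _ =>
    bc_ext (u := (e j).toAddMonoidHom.comp ((bcx _ (M.res (a : A →+* A')).mc).d i j).toAddMonoidHom)
      (v := ((bcx _ M.mc).d i j).toAddMonoidHom.comp (e i).toAddMonoidHom) fun β x =>
      (he j β _).trans (congrArg ((bcx _ M.mc).d i j) (he i β x)).symm⟩
  have q := ((db_flat hf' h.1).1 h).comp (AH.Qis.of_bij E fun i => (e i).bijective)
  refine (db_flat hf hs).2 fun i j k hi hj => ?_
  rw [show ((bm _ hs.sl).f j : _ → _) = ((bm _ h.1.sl).comp E).f j from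
    funext (bc_ext (v := ((bm _ h.1.sl).comp E).f j) fun β x =>
      (congrArg ((bm _ h.1.sl).f j) (he j β x)).symm)]
  exact q i j k hi hj

end

end Vale.Agent.P286EG3
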