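import Vale.Agent.P286EG3.Fb
import Vale.Agent.P286EG3.Fc
import Vale.Agent.P286EH.Gauge
import Vale.Agent.P286E67.Refl

/-!
# Restriction of a family to one chart
-/

namespace Vale.Agent.P286EG3

open CategoryTheory Matrix TensorProduct Vale.Agent.P286 Vale.Agent.P286.St Vale.Agent.P286.H847
  Vale.Agent.P286E Vale.Agent.P286EG Vale.Agent.P286EX Vale.Agent.P286EH

noncomputable section

variable {I : Type} [SmallCategory I] {D : CD I} {G : Grp} {s : ℂ}

/-- The product of copies of a complex. -/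
abbrev pw (n : ℕ) (M : GD) : GD := gpi fun _ : Fin n => M

theorem bd_pw {n : ℕ} {M : GD} {m : ℤ} {x : Fin n → M.V} :
    Bd (pw n M) m x ↔ ∀ l, Bd M m (x l) := by
  refine ⟨fun ⟨y, hy, e⟩ l => ⟨y l, hy l trivial, congrFun e l⟩, fun h => ?_⟩
  choose y hy e using h
  exact ⟨y, fun l _ => hy l, funext e⟩

theorem cy_pw {n : ℕ} {M : GD} {m : ℤ} {x : Fin n → M.V} : Cy (pw n M) m x ↔ ∀ l, Cy M m (x l) :=
  ⟨fun h l => ⟨h.1 l trivial, congrFun h.2 l⟩,
    fun h => ⟨fun l _ => (h l).1, funext fun l => (h l).2⟩⟩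

theorem qis_pw {n : ℕ} {M N : GD} {u : GD.Hom M N} (h : GD.Qis u) :
    GD.Qis (piMap fun _ : Fin n => u) := fun m => by
  refine ⟨fun x hx hd hb => bd_pw.2 fun l => (h m).1 _ (hx l trivial) (congrFun hd l)
    (bd_pw.1 hb l), fun y hy hd => ?_⟩
  choose x hx dx hb using fun l => (h m).2 (y l) (hy l trivial) (congrFun hd l)
  exact ⟨x, fun l _ => hx l, funext dx, bd_pw.2 hb⟩

/-- The map to the product. -/
def toPw {n : ℕ} {N M : GD} (e : Fin n → GD.Hom N M) : GD.Hom N (pw n M) :=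
  ⟨LinearMap.pi fun k => (e k).f, fun x => funext fun k => (e k).comm x,
    fun m x hx k _ => (e k).deg m x hx⟩

variable {K : GK G} (xd : XD D) (U : Rep K)

/-- The equivariance defect as a map of complexes. -/
def eqH (F : FA (QS D G s)) (i : I) :
    GD.Hom (pw U.n (F.M (Zo xd i)).G) (pw U.n (F.M (cop K (Zo xd i))).G) where
  f := LinearMap.pi fun k => (F.t (inr K xd s (Zo xd i))).f.comp (LinearMap.proj k) -
    ∑ l, ((F.M (cop K (Zo xd i))).fn (U.at (qh (inr K xd s (Zo xd i))) (qpt _) l k)).comp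
      ((F.t (inl K s (Zo xd i))).f.comp (LinearMap.proj l))
  comm x := funext fun k => by
    simp only [LinearMap.pi_apply, LinearMap.sub_apply, LinearMap.sum_apply, LinearMap.comp_apply,
      LinearMap.proj_apply, map_sub, map_sum, GD.Hom.comm, AG.d]
  deg m x hx k _ := by
    simp only [LinearMap.pi_apply, LinearMap.sub_apply, LinearMap.sum_apply, LinearMap.comp_apply,
      LinearMap.proj_apply]
    exact sub_mem (GD.Hom.deg _ m _ (hx k trivial)) (sum_mem fun l _ =>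
      AG.gr _ _ m _ (GD.Hom.deg _ m _ (hx l trivial)))

theorem eqH_f (F : FA (QS D G s)) (i : I) (x : Fin U.n → (F.M (Zo xd i)).G.V) (k : Fin U.n) :
    (eqH xd U F i).f x k = eqv xd U F i x k := by
  simp only [eqH, eqv, LinearMap.pi_apply, LinearMap.sub_apply, LinearMap.sum_apply,
    LinearMap.comp_apply, LinearMap.proj_apply]

theorem invC_pw {F : FA (QS D G s)} {i : I} {m : ℤ} {x : Fin U.n → (F.M (Zo xd i)).G.V} :
    InvC xd U F i m x ↔ Cy (pw U.n _) m x ∧ Bd (pw U.n _) m ((eqH xd U F i).f x) :=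
  and_congr cy_pw.symm (bd_pw.trans (forall_congr' fun k => by rw [eqH_f])).symm

theorem Hit.ex {F : FA (QS D G s)} {i : I} {N : GD} {e : Fin U.n → GD.Hom N (F.M (Zo xd i)).G}
    (h : Hit xd U F i N e) : Ex (toPw e) (eqH xd U F i) where
  inv m x hx := ((invC_pw xd U).1 (h.inv m x hx)).2
  inj m x hx hb := h.inj m x hx (bd_pw.1 hb)
  sur m z hz hb := by
    obtain ⟨x, hx, h1⟩ := h.sur m z ((invC_pw xd U).2 ⟨hz, hb⟩)
    exact ⟨x, hx, bd_pw.2 h1⟩

theorem eqH_nat {F F' : FA (QS D G s)} (u : FA.Hom F F') (i : I)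
    (x : Fin U.n → (F.M (Zo xd i)).G.V) :
    (eqH xd U F' i).f ((piMap fun _ => u.u (Zo xd i)).f x) =
      (piMap fun _ => u.u (cop K (Zo xd i))).f ((eqH xd U F i).f x) := funext fun k => by
  refine (eqH_f xd U F' i _ k).trans (Eq.trans ?_ (congrArg (u.u _).f (eqH_f xd U F i x k)).symm)
  rw [eqv, eqv, map_sub, map_sum]
  exact congrArg₂ (· - ·) (u.nat _ _).symm (Finset.sum_congr rfl fun l _ =>
    ((u.li _ _ _).trans (congrArg _ (u.nat _ _))).symm)

/-- The structure map of the coproduct. -/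
abbrev cx (K : GK G) (D : CD I) (i : I) : D.C i →ₐ[ℂ] OZ D i ⊗[ℂ] K.O.R :=
  (cL K (OZ D i)).comp (zx D i)

theorem eqH_li (F : FA (QS D G s)) (i : I) :
    Li (AG.pi fun _ : Fin U.n => (F.M (Zo xd i)).res (zx D i).toRingHom)
      (AG.pi fun _ : Fin U.n => (F.M (cop K (Zo xd i))).res
        (cx K D i).toRingHom) (eqH xd U F i) := fun z x =>
  funext fun k => by
  refine (eqH_f xd U F i _ k).trans (Eq.trans ?_
    (congrArg ((F.M (cop K (Zo xd i))).fn ((cop K (Zo xd i)).x z)) (eqH_f xd U F i x k)).symm)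
  rw [eqv, eqv, map_sub, map_sum]
  refine congrArg₂ (· - ·) ((F.sl (inr K xd s (Zo xd i)) _ _).trans
    (congrArg (fun a => (F.M (cop K (Zo xd i))).fn a _) (inr_zx (s := s) K xd i z)))
    (Finset.sum_congr rfl fun l _ => (congrArg _ (F.sl (inl K s (Zo xd i)) _ _)).trans ?_)
  exact (LinearMap.congr_fun (map_mul (F.M (cop K (Zo xd i))).fn _ _) _).symm.trans
    ((congrArg (fun a => (F.M (cop K (Zo xd i))).fn a _) (mul_comm _ _)).trans
      (LinearMap.congr_fun (map_mul (F.M (cop K (Zo xd i))).fn _ _) _))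

/-- Reflection of quasi-isomorphisms. -/
theorem kb_iff (hU : U.Low) {F F' : GTD (QS D G s)} (u : FA.Hom (gfa F) (gfa F'))
    (h : FC (gfa F)) (h' : FC (gfa F'))
    (hu : ∀ X v x, (u.u X).f (F.vf X v x) = F'.vf X v ((u.u X).f x)) (i : I) :
    KB (piMap fun _ => u.u (Zo xd i)) (eqH xd U (gfa F) i) (eqH xd U (gfa F') i) ↔
      GD.Qis (u.u (Zo xd i)) := by
  refine ⟨fun H => (Hn.qis_iff _).2 fun q => ⟨(hem_hom K xd h h' u hu i q).inj hU fun η hη h0 => ?_,
    (hem_hom K xd h h' u hu i q).surj hU fun η hη => ?_⟩, fun q => kb_of_qis (qis_pw q) (qis_pw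
      ((h _ _ (inl K s (Zo xd i)) ⟨rfl, rfl⟩).qis (h' _ _ (inl K s (Zo xd i)) ⟨rfl, rfl⟩)
        (u.li _) (u.li _) q (u.nat _))) (eqH_nat xd U u i)⟩
  · choose z hz using fun k => Hn.pr_surj (η k)
    obtain rfl : (fun k => Hn.pr _ q (z k)) = η := funext hz
    have h1 := (invC_pw xd U).1 ((invC_iff (gfa_cs F) h (hem K xd h i q).toCM rfl z).1 hη)
    exact funext fun k => Hn.pr_eq_zero.2 (bd_pw.1 ((H q).1 _ h1.1 h1.2
      (bd_pw.2 fun l => Hn.pr_eq_zero.1 (congrFun h0 l))) k)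
  · choose z hz using fun k => Hn.pr_surj (η k)
    obtain rfl : (fun k => Hn.pr _ q (z k)) = η := funext hz
    have h1 := (invC_pw xd U).1 ((invC_iff (gfa_cs F') h' (hem K xd h' i q).toCM rfl z).1 hη)
    obtain ⟨x, hx, -, h2⟩ := (H q).2 _ h1.1 h1.2
    exact ⟨fun k => Hn.pr _ q ⟨x k, cy_pw.1 hx k⟩, funext fun k =>
      ((Hn.pr_eq (x' := Hn.zmap (u.u _) q ⟨x k, cy_pw.1 hx k⟩)).2 (bd_pw.1 h2 k)).symm⟩

/-- The chart datum with one chart. -/
abbrev node (D : CD I) (j : I) : CD (Discrete PUnit) where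
  C _ := D.C j
  f _ := D.f j
  κ _ := AlgHom.id ℂ _
  c _ := 1
  r _ := 1
  κ_id _ _ := rfl
  κ_comp _ _ _ := rfl
  c_id _ := rfl
  c_comp _ _ := (mul_one _).symm
  r_id _ := rfl
  r_comp _ _ := (mul_one _).symm
  c_unit _ := isUnit_one
  r_unit _ := isUnit_one
  κ_f _ := by rw [one_pow, one_mul]; rfl

/-- The frame of the chart. -/
abbrev xnode (j : I) : XD (node D j) where
  sm _ := xd.sm j
  zsm _ := xd.zsm j
  pd _ := xd.pd j
  om _ := xd.om j
  d_eq _ := xd.d_eq j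
  pd_om _ := xd.pd_om j
  pd_κ _ _ := (one_mul _).symm
  cp _ := xd.cp j
  flat _ := RingHom.Flat.id _

/-- A functor from the points of the chart `j` to the points of the chart `k`. -/
structure NF (D : CD I) (G : Grp) (j k : I) where
  κ : ∀ Y : QO (node D j), D.C k →ₐ[ℂ] Y.A.R
  y : ∀ Y : QO (node D j), Fin 3 → Y.A.R
  sq : ∀ Y, y Y ⬝ᵥ y Y = κ Y (D.f k)
  hx : ∀ {X Y} (u : QM G X Y) z, u.φ (κ X z) = κ Y z
  hY : ∀ {X Y} (u : QM G X Y), u.h * G.ht (u.φ ∘ y X) = G.ht (y Y) * u.h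
  g : D.C j
  unit : IsUnit g

namespace NF

variable {j k : I} (Φ : NF D G j k)

/-- The map on objects. -/
abbrev ob (Y : QO (node D j)) : QO D := ⟨k, Y.A, Φ.κ Y, Φ.y Y, Φ.sq Y⟩

/-- The map on arrows. -/
def map (s : ℂ) {X Y : QO (node D j)} (u : Ar G s X Y) : Ar G s (Φ.ob X) (Φ.ob Y) :=
  (⟨𝟙 k, u.φ, u.h, u.pt, fun z => (Φ.hx u z).trans (congrArg _ (D.κ_id k z).symm), by
    rw [D.c_id, map_one, one_smul]; exact Φ.hY u⟩ : QM G (Φ.ob X) (Φ.ob Y))

theorem btr {A B : Type} [CommRing A] [Algebra ℂ A] [CommRing B] [Algebra ℂ B] (φ : A →ₐ[ℂ] B)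
    (s : ℂ) {a : A} {b δ δ' : B} (ha : IsUnit a) (hb : φ a = b) (h1 : δ = 1) (h2 : δ' = 1)
    (w : Derivation ℂ B B) {n : ℕ} (c : Fin n → B) (v : Fin n → Derivation ℂ A A)
    (h : ∀ a, w (φ a) = ∑ l, c l * φ (v l a)) :
    δ * δ' * (s • dlog w b - ∑ l, c l * φ (s • dlog (v l) a)) = s • (δ * w δ') - s • (δ' * w δ) := by
  subst hb h1 h2
  simp only [map_smul, mul_smul_comm, ← Finset.smul_sum, sum_dlog φ w c v ha (h a), sub_self,
    mul_zero]

theorem dl_map {X Y : QO (node D j)} (u : Ar G s X Y) : (QS D G s).dl (Φ.map s u) = 1 :=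
  (congrArg (Φ.κ Y) (D.r_id k)).trans (map_one _)

/-- The etale functor. -/
def et (s : ℂ) : EtF (QS D G s) (QS (node D j) G s) where
  ob := Φ.ob
  map := Φ.map s
  map_id _ := Sim.of_eq rfl
  map_comp _ _ := Sim.of_eq (ar_ext (Category.id_comp _).symm rfl rfl)
  cen _ _ h := h.elim
  i _ := AlgHom.id ℂ _
  unr _ := unr_of_surj Function.surjective_id
  lf _ v := v
  lf_i _ _ _ := rfl
  nat _ _ := rfl
  unit u := (Φ.dl_map u).symm ▸ isUnit_one
  b X v := s • dlog v (X.x Φ.g)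
  b_add _ v w := (congrArg (s • ·) (dlog_add v w _)).trans (smul_add _ _ _)
  b_smul X a v := (congrArg (s • ·) (dlog_smul_left a v _)).trans (mul_smul_comm s (β := X.A.R) _ _).symm
  b_lie X v w := (congrArg (s • ·) (dlog_lie v w (Φ.unit.map X.x))).trans
    ((smul_sub _ _ _).trans (congrArg₂ (· - ·) (Derivation.map_smul v s _).symm
      (Derivation.map_smul w s _).symm))
  b_tr {X Y} u w _ c v h := btr (QM.φ u) s (Φ.unit.map X.x) (QM.hx u _) (map_one Y.x)
    (Φ.dl_map u) w c v h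

/-- The restricted family. -/
abbrev res (F : GTD (QS D G s)) : GTD (QS (node D j) G s) := (Φ.et s).push F

theorem fc {F : GTD (QS D G s)} (h : FC (gfa F)) : FC (gfa (Φ.res F)) := fun _ _ u _ =>
  (h _ _ (Φ.map s u) ⟨rfl, rfl⟩ :)

end NF

end

end Vale.Agent.P286EG3
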